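import Vale.Agent.P370.Xor

/-!
Block P5 of the NP-hardness proof (problem P370): one unit charge in each cell.
-/

namespace Vale.Agent.P370.H728

open Vale.Agent.P370

/-- Taylor expansion of `1 / sqrt (R ^ 2 + x)`. -/
theorem taylor {R x : ℝ} (hR : 0 < R) (hx : 0 ≤ x) :
    0 ≤ 1 / Real.sqrt (R ^ 2 + x) - 1 / R + x / (2 * R ^ 3) ∧
      1 / Real.sqrt (R ^ 2 + x) - 1 / R + x / (2 * R ^ 3) ≤ 3 / 8 * x ^ 2 / R ^ 5 := by
  obtain ⟨t, ht⟩ : ∃ t, t = Real.sqrt (R ^ 2 + x) := ⟨_, rfl⟩
  have h0 : 0 ≤ R ^ 2 + x := by positivity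
  have ht2 : t ^ 2 = R ^ 2 + x := by rw [ht, Real.sq_sqrt h0]
  have ht0 : 0 ≤ t := by rw [ht]; exact Real.sqrt_nonneg _
  have htR : R ≤ t := by nlinarith
  have htp : 0 < t := lt_of_lt_of_le hR htR
  have hxe : x = t ^ 2 - R ^ 2 := by linarith
  rw [← ht]
  have e1 : 1 / t - 1 / R + x / (2 * R ^ 3) = (t - R) ^ 2 * (t + 2 * R) / (2 * R ^ 3 * t) := by
    rw [hxe]
    field_simp
    ring
  rw [e1]
  refine ⟨by positivity, ?_⟩
  have e2 : 3 / 8 * x ^ 2 / R ^ 5 - (t - R) ^ 2 * (t + 2 * R) / (2 * R ^ 3 * t) =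
      (t - R) ^ 2 * (3 * t * (t + R) ^ 2 - 4 * R ^ 2 * (t + 2 * R)) / (8 * R ^ 5 * t) := by
    rw [hxe]
    field_simp
    ring
  have e3 : 0 ≤ 3 * t * (t + R) ^ 2 - 4 * R ^ 2 * (t + 2 * R) := by
    have h1 : 4 * R ^ 2 ≤ (t + R) ^ 2 := by nlinarith
    have h2 : 3 * t * (4 * R ^ 2) ≤ 3 * t * (t + R) ^ 2 :=
      mul_le_mul_of_nonneg_left h1 (by positivity)
    have h3 : R ^ 2 * R ≤ R ^ 2 * t := mul_le_mul_of_nonneg_left htR (by positivity)
    nlinarith
  have e4 : 0 ≤ 3 / 8 * x ^ 2 / R ^ 5 - (t - R) ^ 2 * (t + 2 * R) / (2 * R ^ 3 * t) := by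
    rw [e2]
    positivity
  linarith

/-- the coupling of two cells -/
theorem coupling {R W h h' : ℝ} (hR : 0 < R) (h1 : 0 ≤ h) (h2 : 0 ≤ h') (h3 : h ≤ W)
    (h4 : h' ≤ W) :
    |1 / 2 * (1 / Real.sqrt (R ^ 2 + (h - h') ^ 2) - 1 / Real.sqrt (R ^ 2 + (h + h') ^ 2)) -
      h * h' / R ^ 3| ≤ 3 * W ^ 4 / R ^ 5 := by
  obtain ⟨a1, a2⟩ := taylor hR (sq_nonneg (h - h'))
  obtain ⟨b1, b2⟩ := taylor hR (sq_nonneg (h + h'))
  have hW : 0 ≤ W := h1.trans h3
  have c1 : ((h - h') ^ 2) ^ 2 ≤ 16 * W ^ 4 := by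
    have : (h - h') ^ 2 ≤ (2 * W) ^ 2 := by nlinarith
    calc ((h - h') ^ 2) ^ 2 ≤ ((2 * W) ^ 2) ^ 2 := pow_le_pow_left₀ (sq_nonneg _) this 2
      _ = 16 * W ^ 4 := by ring
  have c2 : ((h + h') ^ 2) ^ 2 ≤ 16 * W ^ 4 := by
    have : (h + h') ^ 2 ≤ (2 * W) ^ 2 := by nlinarith
    calc ((h + h') ^ 2) ^ 2 ≤ ((2 * W) ^ 2) ^ 2 := pow_le_pow_left₀ (sq_nonneg _) this 2
      _ = 16 * W ^ 4 := by ring
  have d1 : 3 / 8 * ((h - h') ^ 2) ^ 2 / R ^ 5 ≤ 6 * W ^ 4 / R ^ 5 := by
    rw [div_le_div_iff_of_pos_right (by positivity)]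
    linarith
  have d2 : 3 / 8 * ((h + h') ^ 2) ^ 2 / R ^ 5 ≤ 6 * W ^ 4 / R ^ 5 := by
    rw [div_le_div_iff_of_pos_right (by positivity)]
    linarith
  have e : 1 / 2 * (1 / Real.sqrt (R ^ 2 + (h - h') ^ 2) - 1 / Real.sqrt (R ^ 2 + (h + h') ^ 2)) -
      h * h' / R ^ 3 =
      1 / 2 * ((1 / Real.sqrt (R ^ 2 + (h - h') ^ 2) - 1 / R + (h - h') ^ 2 / (2 * R ^ 3)) -
      (1 / Real.sqrt (R ^ 2 + (h + h') ^ 2) - 1 / R + (h + h') ^ 2 / (2 * R ^ 3))) := by
    field_simp
    ring
  rw [e]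
  have f : 3 * W ^ 4 / R ^ 5 = 1 / 2 * (6 * W ^ 4 / R ^ 5) := by ring
  rw [f, abs_le]
  constructor <;> linarith

theorem sg_mul_self (b : Bool) : sg b * sg b = 1 := by
  unfold sg
  split_ifs <;> norm_num

theorem abs_sg (b : Bool) : |sg b| = 1 := by
  unfold sg
  split_ifs <;> norm_num

/-- the inverse distance of two sites as a function of the signs -/
theorem inv_dist (R h h' : ℝ) (b b' : Bool) :
    1 / Real.sqrt (R ^ 2 + (sg b * h - sg b' * h') ^ 2) =
      1 / 2 * (1 / Real.sqrt (R ^ 2 + (h - h') ^ 2) + 1 / Real.sqrt (R ^ 2 + (h + h') ^ 2)) +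
      sg b * sg b' *
        (1 / 2 * (1 / Real.sqrt (R ^ 2 + (h - h') ^ 2) - 1 / Real.sqrt (R ^ 2 + (h + h') ^ 2))) := by
  have e1 : (-1 * h - -1 * h') ^ 2 = (h - h') ^ 2 := by ring
  have e2 : (-1 * h - 1 * h') ^ 2 = (h + h') ^ 2 := by ring
  have e3 : (1 * h - -1 * h') ^ 2 = (h + h') ^ 2 := by ring
  have e4 : (1 * h - 1 * h') ^ 2 = (h - h') ^ 2 := by ring
  cases b <;> cases b' <;> simp only [sg, if_true, Bool.false_eq_true, if_false] <;>
    simp only [e1, e2, e3, e4] <;> ring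

section

variable {κ : Type} [Fintype κ] [DecidableEq κ]

omit [Fintype κ] [DecidableEq κ] in
theorem sites_inj (t : κ → Bool) : Function.Injective fun c : κ => (c, t c) :=
  fun _ _ h => congrArg Prod.fst h

theorem card_sites (t : κ → Bool) : (sites t).card = Fintype.card κ := by
  rw [sites, Finset.card_image_of_injective _ (sites_inj t), Finset.card_univ]

theorem coulE_sites (d : κ × Bool → κ × Bool → ℝ) (t : κ → Bool) :
    coulE d (sites t) = 1 / 2 * ∑ c, ∑ c' ∈ Finset.univ.erase c, 1 / d (c, t c) (c', t c') := by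
  unfold coulE sites
  rw [Finset.sum_image fun a _ b _ hab => sites_inj t hab]
  congr 1
  refine Finset.sum_congr rfl fun c _ => ?_
  rw [← Finset.image_erase (sites_inj t), Finset.sum_image fun a _ b _ hab => sites_inj t hab]

theorem coulE_insert {ι : Type} [DecidableEq ι] (d : ι → ι → ℝ) (hd : ∀ x y, d x y = d y x)
    (S : Finset ι) (p : ι) (hp : p ∉ S) :
    coulE d (insert p S) = coulE d S + ∑ s ∈ S, 1 / d p s := by
  unfold coulE
  rw [Finset.sum_insert hp, Finset.erase_insert hp]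
  have h1 : ∀ x ∈ S, ∑ p' ∈ (insert p S).erase x, 1 / d x p' =
      1 / d p x + ∑ p' ∈ S.erase x, 1 / d x p' := by
    intro x hx
    have hxp : p ≠ x := fun h => hp (h ▸ hx)
    rw [Finset.erase_insert_of_ne hxp, Finset.sum_insert (fun h => hp (Finset.mem_of_mem_erase h)),
      hd x p]
  rw [Finset.sum_congr rfl h1, Finset.sum_add_distrib]
  ring

end

/-- Block P5. -/
theorem cellStmt : CellStmt := by
  intro κ _ _ r h u W hW hh hr hr0 hr1 hu
  have hK : (0 : ℝ) ≤ Fintype.card κ := Nat.cast_nonneg _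
  have hu0 : 0 < u := by nlinarith
  have hsymm : ∀ p p' : κ × Bool, siteDist u r h p p' = siteDist u r h p' p := by
    intro p p'
    unfold siteDist
    rw [hr p.1 p'.1]
    congr 2
    ring
  constructor
  · refine ⟨1 / 2 * ∑ c, ∑ c' ∈ Finset.univ.erase c,
      1 / 2 * (1 / Real.sqrt ((u * r c c') ^ 2 + (h c - h c') ^ 2) +
        1 / Real.sqrt ((u * r c c') ^ 2 + (h c + h c') ^ 2)), fun t => ?_⟩
    rw [coulE_sites]
    unfold isingE
    have key : 1 / 2 * ∑ c, ∑ c' ∈ Finset.univ.erase c, 1 / siteDist u r h (c, t c) (c', t c') -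
        (1 / 2 * ∑ c, ∑ c' ∈ Finset.univ.erase c,
          1 / 2 * (1 / Real.sqrt ((u * r c c') ^ 2 + (h c - h c') ^ 2) +
            1 / Real.sqrt ((u * r c c') ^ 2 + (h c + h c') ^ 2)) +
          (1 / 2 * ∑ c, ∑ c' ∈ Finset.univ.erase c,
            h c * h c' * (sg (t c) * sg (t c')) / r c c' ^ 3) / u ^ 3) =
        1 / 2 * ∑ c, ∑ c' ∈ Finset.univ.erase c, sg (t c) * sg (t c') *
          (1 / 2 * (1 / Real.sqrt ((u * r c c') ^ 2 + (h c - h c') ^ 2) -
            1 / Real.sqrt ((u * r c c') ^ 2 + (h c + h c') ^ 2)) -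
            h c * h c' / (u * r c c') ^ 3) := by
      rw [mul_div_assoc, Finset.sum_div, ← sub_sub, ← mul_sub, ← mul_sub,
        ← Finset.sum_sub_distrib, ← Finset.sum_sub_distrib]
      congr 1
      refine Finset.sum_congr rfl fun c _ => ?_
      rw [Finset.sum_div, ← Finset.sum_sub_distrib, ← Finset.sum_sub_distrib]
      refine Finset.sum_congr rfl fun c' hc' => ?_
      have hne : c ≠ c' := (Finset.ne_of_mem_erase hc').symm
      have hrp : 0 < r c c' := lt_of_lt_of_le one_pos (hr1 c c' hne)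
      unfold siteDist
      simp only
      rw [inv_dist]
      field_simp
      ring
    rw [key]
    have hbd : ∀ c, ∀ c' ∈ Finset.univ.erase c, |sg (t c) * sg (t c') *
          (1 / 2 * (1 / Real.sqrt ((u * r c c') ^ 2 + (h c - h c') ^ 2) -
            1 / Real.sqrt ((u * r c c') ^ 2 + (h c + h c') ^ 2)) -
            h c * h c' / (u * r c c') ^ 3)| ≤ 3 * W ^ 4 / u ^ 5 := by
      intro c c' hc'
      have hne : c ≠ c' := (Finset.ne_of_mem_erase hc').symm
      have hrp := hr1 c c' hne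
      rw [abs_mul, abs_mul, abs_sg, abs_sg, one_mul, one_mul]
      have hur : u ≤ u * r c c' := by nlinarith
      refine (coupling (by nlinarith) (by linarith [(hh c).1]) (by linarith [(hh c').1])
        (hh c).2 (hh c').2).trans ?_
      have hW4 : 0 ≤ 3 * W ^ 4 := by positivity
      exact div_le_div_of_nonneg_left hW4 (by positivity) (pow_le_pow_left₀ hu0.le hur 5)
    rw [abs_mul, abs_of_pos (by norm_num : (0 : ℝ) < 1 / 2)]
    have hsum : |∑ c, ∑ c' ∈ Finset.univ.erase c, sg (t c) * sg (t c') *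
          (1 / 2 * (1 / Real.sqrt ((u * r c c') ^ 2 + (h c - h c') ^ 2) -
            1 / Real.sqrt ((u * r c c') ^ 2 + (h c + h c') ^ 2)) -
            h c * h c' / (u * r c c') ^ 3)| ≤
        (Fintype.card κ : ℝ) * ((Fintype.card κ : ℝ) * (3 * W ^ 4 / u ^ 5)) := by
      refine (Finset.abs_sum_le_sum_abs _ _).trans ?_
      have : ∀ c ∈ (Finset.univ : Finset κ), |∑ c' ∈ Finset.univ.erase c, sg (t c) * sg (t c') *
          (1 / 2 * (1 / Real.sqrt ((u * r c c') ^ 2 + (h c - h c') ^ 2) -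
            1 / Real.sqrt ((u * r c c') ^ 2 + (h c + h c') ^ 2)) -
            h c * h c' / (u * r c c') ^ 3)| ≤ (Fintype.card κ : ℝ) * (3 * W ^ 4 / u ^ 5) := by
        intro c _
        refine (Finset.abs_sum_le_sum_abs _ _).trans ((Finset.sum_le_card_nsmul _ _ _
          (hbd c)).trans ?_)
        rw [nsmul_eq_mul]
        refine mul_le_mul_of_nonneg_right ?_ (by positivity)
        exact_mod_cast Finset.card_le_univ _
      refine (Finset.sum_le_card_nsmul _ _ _ this).trans ?_
      rw [nsmul_eq_mul, Finset.card_univ]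
    calc 1 / 2 * _ ≤ 1 / 2 * ((Fintype.card κ : ℝ) * ((Fintype.card κ : ℝ) *
          (3 * W ^ 4 / u ^ 5))) := mul_le_mul_of_nonneg_left hsum (by norm_num)
      _ ≤ 3 * (Fintype.card κ : ℝ) ^ 2 * W ^ 4 / u ^ 5 := by
        have : (0 : ℝ) ≤ (Fintype.card κ : ℝ) ^ 2 * (W ^ 4 / u ^ 5) := by positivity
        have e : 3 * (Fintype.card κ : ℝ) ^ 2 * W ^ 4 / u ^ 5 =
          3 * ((Fintype.card κ : ℝ) ^ 2 * (W ^ 4 / u ^ 5)) := by ring
        have e' : 1 / 2 * ((Fintype.card κ : ℝ) * ((Fintype.card κ : ℝ) *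
          (3 * W ^ 4 / u ^ 5))) = 3 / 2 * ((Fintype.card κ : ℝ) ^ 2 * (W ^ 4 / u ^ 5)) := by ring
        rw [e, e']
        linarith
  · intro T hT
    obtain ⟨S, hS, hmin⟩ := Finset.exists_min_image
      (Finset.powersetCard (Fintype.card κ) (Finset.univ : Finset (κ × Bool)))
      (coulE (siteDist u r h)) ⟨T, Finset.mem_powersetCard.2 ⟨Finset.subset_univ _, hT⟩⟩
    have hSc : S.card = Fintype.card κ := (Finset.mem_powersetCard.1 hS).2
    have hST := hmin T (Finset.mem_powersetCard.2 ⟨Finset.subset_univ _, hT⟩)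
    -- `S` has at most one site in each cell
    have hinj : ∀ c, ¬ ((c, true) ∈ S ∧ (c, false) ∈ S) := by
      rintro c ⟨h1, h2⟩
      have hlt : (S.image Prod.fst).card < Fintype.card κ := by
        rw [← hSc]
        refine lt_of_le_of_ne Finset.card_image_le fun heq => ?_
        have := Finset.card_image_iff.1 heq h1 h2 rfl
        simp at this
      obtain ⟨c', hc'⟩ : ∃ c', c' ∉ S.image Prod.fst := by
        by_contra hcon
        push Not at hcon
        have : S.image Prod.fst = Finset.univ := Finset.eq_univ_iff_forall.2 hcon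
        rw [this, Finset.card_univ] at hlt
        exact lt_irrefl _ hlt
      have hc'2 : ∀ x ∈ S, x.1 ≠ c' := fun x hx hxc => hc' (Finset.mem_image.2 ⟨x, hx, hxc⟩)
      have hqS : (c', true) ∉ S.erase (c, true) := fun hq =>
        hc'2 _ (Finset.mem_of_mem_erase hq) rfl
      have e1 := coulE_insert (siteDist u r h) hsymm (S.erase (c, true)) (c, true)
        (Finset.notMem_erase _ _)
      rw [Finset.insert_erase h1] at e1
      have e2 := coulE_insert (siteDist u r h) hsymm (S.erase (c, true)) (c', true) hqS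
      have hmem : insert (c', true) (S.erase (c, true)) ∈
          Finset.powersetCard (Fintype.card κ) (Finset.univ : Finset (κ × Bool)) := by
        refine Finset.mem_powersetCard.2 ⟨Finset.subset_univ _, ?_⟩
        rw [Finset.card_insert_of_notMem hqS, Finset.card_erase_add_one h1, hSc]
      have e3 := hmin _ hmem
      -- the energy removed
      have hd1 : siteDist u r h (c, true) (c, false) = 2 * h c := by
        unfold siteDist
        simp only [hr0, mul_zero, sg, if_true, Bool.false_eq_true, if_false]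
        rw [show (0 : ℝ) ^ 2 + (1 * h c - -1 * h c) ^ 2 = (2 * h c) ^ 2 by ring]
        exact Real.sqrt_sq (by linarith [(hh c).1])
      have hf : (c, false) ∈ S.erase (c, true) :=
        Finset.mem_erase.2 ⟨by simp, h2⟩
      have e4 : 1 / (2 * W) ≤ ∑ s ∈ S.erase (c, true), 1 / siteDist u r h (c, true) s := by
        refine le_trans ?_ (Finset.single_le_sum (f := fun s => 1 / siteDist u r h (c, true) s)
          (fun s _ => ?_) hf)
        · rw [hd1]
          exact one_div_le_one_div_of_le (by linarith [(hh c).1]) (by linarith [(hh c).2])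
        · exact one_div_nonneg.2 (Real.sqrt_nonneg _)
      have e5 : ∑ s ∈ S.erase (c, true), 1 / siteDist u r h (c', true) s ≤
          (Fintype.card κ : ℝ) * (1 / u) := by
        refine (Finset.sum_le_card_nsmul _ _ (1 / u) fun s hs => ?_).trans ?_
        · have hne : c' ≠ s.1 := (hc'2 s (Finset.mem_of_mem_erase hs)).symm
          refine one_div_le_one_div_of_le hu0 ?_
          unfold siteDist
          refine Real.le_sqrt_of_sq_le ?_
          have h3 := hr1 c' s.1 hne
          have h4 : u ≤ u * r c' s.1 := by nlinarith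
          have h5 : u ^ 2 ≤ (u * r c' s.1) ^ 2 := pow_le_pow_left₀ hu0.le h4 2
          linarith [sq_nonneg (sg true * h c' - sg s.2 * h s.1)]
        · rw [nsmul_eq_mul]
          refine mul_le_mul_of_nonneg_right ?_ (by positivity)
          have : (S.erase (c, true)).card ≤ Fintype.card κ := by
            rw [← hSc]
            exact Finset.card_erase_le
          exact_mod_cast this
      have e6 : (Fintype.card κ : ℝ) * (1 / u) < 1 / (2 * W) := by
        rw [mul_one_div, div_lt_div_iff₀ hu0 (by positivity)]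
        nlinarith
      linarith
    have hinj2 : Set.InjOn Prod.fst (S : Set (κ × Bool)) := by
      rintro ⟨c, b⟩ hb ⟨c', b'⟩ hb' heq
      simp only at heq
      subst heq
      cases b <;> cases b'
      · rfl
      · exact absurd ⟨hb', hb⟩ (hinj c)
      · exact absurd ⟨hb, hb'⟩ (hinj c)
      · rfl
    have himg : S.image Prod.fst = Finset.univ := by
      rw [← Finset.card_eq_iff_eq_univ, Finset.card_image_of_injOn hinj2, hSc]
    refine ⟨fun c => decide ((c, true) ∈ S), ?_⟩
    have hsub : sites (fun c => decide ((c, true) ∈ S)) ⊆ S := by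
      intro x hx
      unfold sites at hx
      rw [Finset.mem_image] at hx
      obtain ⟨c, -, rfl⟩ := hx
      by_cases hc : (c, true) ∈ S
      · simp [hc]
      · have : c ∈ S.image Prod.fst := by
          rw [himg]
          exact Finset.mem_univ _
        obtain ⟨⟨c₂, b⟩, hb, hcb⟩ := Finset.mem_image.1 this
        simp only at hcb
        subst hcb
        cases b
        · simpa [hc] using hb
        · exact absurd hb hc
    have heq : sites (fun c => decide ((c, true) ∈ S)) = S :=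
      Finset.eq_of_subset_of_card_le hsub (by rw [card_sites, hSc])
    rw [heq]
    exact hST

end Vale.Agent.P370.H728
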