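import Vale.Agent.P370.Interface
import Vale.Agent.P370.H728.Cell

/-!
Block A2 of the NP-hardness proof (problem P370): pointwise lower bound of the comparison
potential by the best choice of different protons.
-/

namespace Vale.Agent.P370.H728

open Vale.Agent.P363.Stmt Vale.Agent.P370

theorem coulE_image {ι κ : Type} [DecidableEq ι] [DecidableEq κ] (d : ι → ι → ℝ) (f : κ → ι)
    (A : Finset κ) (hf : Set.InjOn f A) :
    coulE d (A.image f) = coulE (fun j k => d (f j) (f k)) A := by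
  unfold coulE
  rw [Finset.sum_image hf]
  congr 1
  refine Finset.sum_congr rfl fun c hc => ?_
  have : (A.image f).erase (f c) = (A.erase c).image f := by
    ext y
    simp only [Finset.mem_erase, Finset.mem_image]
    constructor
    · rintro ⟨h1, z, hz, rfl⟩
      exact ⟨z, ⟨fun h => h1 (h ▸ rfl), hz⟩, rfl⟩
    · rintro ⟨z, ⟨h1, hz⟩, rfl⟩
      exact ⟨fun h => h1 (hf hz hc h), z, hz, rfl⟩
  rw [this, Finset.sum_image fun a ha b hb hab =>
    hf (Finset.mem_of_mem_erase ha) (Finset.mem_of_mem_erase hb) hab]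

theorem coulE_mono {ι : Type} [DecidableEq ι] (d e : ι → ι → ℝ) (ε : ℝ) (A : Finset ι)
    (h : ∀ i ∈ A, ∀ j ∈ A, i ≠ j → 1 / e i j - ε ≤ 1 / d i j) (hε : 0 ≤ ε) :
    coulE e A - 1 / 2 * (A.card : ℝ) ^ 2 * ε ≤ coulE d A := by
  unfold coulE
  have h1 : ∀ i ∈ A, (∑ j ∈ A.erase i, 1 / e i j) - (A.card : ℝ) * ε ≤ ∑ j ∈ A.erase i, 1 / d i j := by
    intro i hi
    have h2 : ∑ j ∈ A.erase i, (1 / e i j - ε) ≤ ∑ j ∈ A.erase i, 1 / d i j :=
      Finset.sum_le_sum fun j hj => h i hi j (Finset.mem_of_mem_erase hj)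
        (Finset.ne_of_mem_erase hj).symm
    rw [Finset.sum_sub_distrib, Finset.sum_const, nsmul_eq_mul] at h2
    have h3 : ((A.erase i).card : ℝ) * ε ≤ (A.card : ℝ) * ε :=
      mul_le_mul_of_nonneg_right (by exact_mod_cast Finset.card_erase_le) hε
    linarith
  have h2 := Finset.sum_le_sum h1
  rw [Finset.sum_sub_distrib, Finset.sum_const, nsmul_eq_mul] at h2
  nlinarith

theorem pairs_eq {N : ℕ} (v : Fin N → Fin N → ℝ) (hv : ∀ i k, v i k = v k i) :
    ∑ i, ∑ k ∈ Finset.Ioi i, v i k = 1 / 2 * ∑ i, ∑ k ∈ Finset.univ.erase i, v i k := by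
  have h1 : ∀ i : Fin N, ∑ k ∈ Finset.univ.erase i, v i k =
      ∑ k ∈ Finset.Iio i, v i k + ∑ k ∈ Finset.Ioi i, v i k := by
    intro i
    rw [← Finset.sum_union]
    · congr 1
      ext k
      simp only [Finset.mem_erase, Finset.mem_univ, and_true, Finset.mem_union, Finset.mem_Iio,
        Finset.mem_Ioi]
      exact ⟨fun h => lt_or_gt_of_ne h, fun h => h.elim (fun h => ne_of_lt h) fun h => ne_of_gt h⟩
    · rw [Finset.disjoint_left]
      intro k hk hk'
      rw [Finset.mem_Iio] at hk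
      rw [Finset.mem_Ioi] at hk'
      exact absurd (hk.trans hk') (lt_irrefl _)
  have h2 : ∑ i : Fin N, ∑ k ∈ Finset.Iio i, v i k = ∑ i, ∑ k ∈ Finset.Ioi i, v i k := by
    rw [Finset.sum_comm' (t' := Finset.univ) (s' := fun k => Finset.Ioi k)
      (fun i k => by simp)]
    exact Finset.sum_congr rfl fun i _ => Finset.sum_congr rfl fun k _ => hv k i
  rw [Finset.sum_congr rfl fun i _ => h1 i, Finset.sum_add_distrib, h2]
  ring

section

variable {M N : ℕ} (R : Fin M → R3)

theorem selE_eq (S : Finset (Fin M)) : selE R S = coulE (fun i j => ‖R i - R j‖) S -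
    ∑ i ∈ S, ∑ j ∈ Finset.univ.erase i, 1 / ‖R i - R j‖ := rfl

theorem selE_insert_le (S : Finset (Fin M)) (p : Fin M) (hp : p ∉ S) :
    selE R (insert p S) ≤ selE R S := by
  rw [selE_eq, selE_eq, coulE_insert _ (fun i j => norm_sub_rev _ _) S p hp,
    Finset.sum_insert hp]
  have : ∑ s ∈ S, 1 / ‖R p - R s‖ ≤ ∑ j ∈ Finset.univ.erase p, 1 / ‖R p - R j‖ :=
    Finset.sum_le_sum_of_subset_of_nonneg
      (fun j hj => Finset.mem_erase.2 ⟨fun h => hp (h ▸ hj), Finset.mem_univ _⟩)
      fun j _ _ => by positivity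
  linarith

theorem selE_mono {S T : Finset (Fin M)} (h : S ⊆ T) : selE R T ≤ selE R S := by
  have key : ∀ U : Finset (Fin M), Disjoint S U → selE R (S ∪ U) ≤ selE R S := by
    intro U
    induction U using Finset.induction_on with
    | empty => simp
    | insert p U hp ih =>
      intro hd
      rw [Finset.disjoint_insert_right] at hd
      rw [Finset.union_insert]
      refine (selE_insert_le R _ p ?_).trans (ih hd.2)
      rw [Finset.mem_union]
      exact fun h' => h'.elim hd.1 hp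
  have := key (T \ S) Finset.disjoint_sdiff
  rwa [Finset.union_sdiff_of_subset h] at this

end

/-- Block A2. -/
theorem pointStmt : PointStmt := by
  intro C₁ hC₁
  refine ⟨C₁ + 16, by linarith, ?_⟩
  intro M N R μ hN hNM hμ hR x hx
  have hM1 : (1 : ℝ) ≤ M := by exact_mod_cast hN.trans hNM
  have hμ16 : C₁ + 16 ≤ μ := by nlinarith
  have hμ0 : 0 < μ := by linarith
  have hμ2 : (0 : ℝ) < μ ^ 2 := by positivity
  have hμ3 : (0 : ℝ) < μ ^ 3 := by positivity
  have hμ4 : (0 : ℝ) < μ ^ 4 := by positivity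
  have h8 : 8 * μ ^ 2 ≤ μ ^ 3 := by nlinarith
  -- elementary inequalities for the inverse distances
  have inv_up : ∀ r s : ℝ, μ ^ 3 ≤ r → r - 2 * μ ^ 2 ≤ s → 1 / s ≤ 1 / r + 4 / μ ^ 4 := by
    intro r s hr hs
    have hr0 : 0 < r := by linarith
    have hs0 : r / 2 ≤ s := by linarith
    have hsp : 0 < s := by linarith
    have e : 1 / s - 1 / r = (r - s) / (s * r) := by field_simp
    have h1 : (r - s) / (s * r) ≤ 2 * μ ^ 2 / (s * r) :=
      div_le_div_of_nonneg_right (by linarith) (by positivity)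
    have h2 : 2 * μ ^ 2 / (s * r) ≤ 4 / μ ^ 4 := by
      rw [div_le_div_iff₀ (by positivity) hμ4]
      have h3 : μ ^ 3 / 2 * μ ^ 3 ≤ s * r :=
        mul_le_mul (by linarith) hr hμ3.le hsp.le
      nlinarith
    linarith
  have inv_low : ∀ r s : ℝ, μ ^ 3 ≤ r → 0 < s → s ≤ r + 4 * μ ^ 2 →
      1 / r - 4 / μ ^ 4 ≤ 1 / s := by
    intro r s hr hs0 hs
    have hr0 : 0 < r := by linarith
    have e : 1 / r - 1 / s = (s - r) / (s * r) := by field_simp
    by_cases hsr : s ≤ r
    · have : 1 / r ≤ 1 / s := one_div_le_one_div_of_le hs0 hsr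
      have : 0 < 4 / μ ^ 4 := by positivity
      linarith
    · push Not at hsr
      have h1 : (s - r) / (s * r) ≤ 4 * μ ^ 2 / (s * r) :=
        div_le_div_of_nonneg_right (by linarith) (by positivity)
      have h2 : 4 * μ ^ 2 / (s * r) ≤ 4 / μ ^ 4 := by
        rw [div_le_div_iff₀ (by positivity) hμ4]
        have h3 : μ ^ 3 * μ ^ 3 ≤ s * r :=
          mul_le_mul (by linarith) hr hμ3.le hs0.le
        nlinarith
      linarith
  -- uniqueness of the near proton
  have huniq : ∀ (y : R3) j k, ‖y - R j‖ ≤ 2 * μ ^ 2 → ‖y - R k‖ ≤ 2 * μ ^ 2 → j = k := by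
    intro y j k hj hk
    by_contra hne
    have h1 := hR j k hne
    have h2 : ‖R j - R k‖ ≤ ‖y - R j‖ + ‖y - R k‖ := by
      have : R j - R k = (y - R k) - (y - R j) := by abel
      rw [this]
      exact (norm_sub_le _ _).trans (by rw [add_comm])
    linarith
  -- one-body bounds
  have hnear : ∀ (y : R3) j, ‖y - R j‖ ≤ 2 * μ ^ 2 →
      -(1 / 2) - C₁ / μ ^ 4 - ∑ k ∈ Finset.univ.erase j, 1 / ‖R j - R k‖ - (M : ℝ) * (4 / μ ^ 4) ≤
        nearW R (μ ^ 2) C₁ y := by
    intro y j hj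
    unfold nearW
    rw [← Finset.add_sum_erase _ _ (Finset.mem_univ j), if_pos hj]
    have h1 : ∀ k ∈ Finset.univ.erase j, -(1 / ‖R j - R k‖) - 4 / μ ^ 4 ≤
        if ‖y - R k‖ ≤ 2 * μ ^ 2 then -(1 / 2 + C₁ / (μ ^ 2) ^ 2) else -(1 / ‖y - R k‖) := by
      intro k hk
      have hne := Finset.ne_of_mem_erase hk
      rw [if_neg fun h => hne (huniq y k j h hj)]
      have h2 := hR j k hne.symm
      have h3 : ‖R j - R k‖ ≤ ‖y - R j‖ + ‖y - R k‖ := by
        have : R j - R k = (y - R k) - (y - R j) := by abel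
        rw [this]
        exact (norm_sub_le _ _).trans (by rw [add_comm])
      have := inv_up ‖R j - R k‖ ‖y - R k‖ h2 (by linarith)
      linarith
    have h2 := Finset.sum_le_sum h1
    rw [Finset.sum_sub_distrib, Finset.sum_neg_distrib, Finset.sum_const, nsmul_eq_mul] at h2
    have h3 : ((Finset.univ.erase j).card : ℝ) * (4 / μ ^ 4) ≤ (M : ℝ) * (4 / μ ^ 4) := by
      refine mul_le_mul_of_nonneg_right ?_ (by positivity)
      have := Finset.card_erase_le (s := (Finset.univ : Finset (Fin M))) (a := j)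
      rw [Finset.card_univ, Fintype.card_fin] at this
      exact_mod_cast this
    have h4 : (μ ^ 2) ^ 2 = μ ^ 4 := by ring
    rw [h4] at h2 ⊢
    linarith
  have hfar : ∀ y : R3, (∀ j, ¬ ‖y - R j‖ ≤ 2 * μ ^ 2) → -(1 / 2) ≤ nearW R (μ ^ 2) C₁ y := by
    intro y hy
    unfold nearW
    have h1 : ∀ j ∈ (Finset.univ : Finset (Fin M)), -(1 / (2 * μ ^ 2)) ≤
        if ‖y - R j‖ ≤ 2 * μ ^ 2 then -(1 / 2 + C₁ / (μ ^ 2) ^ 2) else -(1 / ‖y - R j‖) := by
      intro j _
      rw [if_neg (hy j)]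
      have := hy j
      push Not at this
      have := one_div_le_one_div_of_le (by positivity) this.le
      linarith
    have h2 := Finset.sum_le_sum h1
    rw [Finset.sum_const, Finset.card_univ, Fintype.card_fin, nsmul_eq_mul] at h2
    have h3 : (M : ℝ) * (1 / (2 * μ ^ 2)) ≤ 1 / 2 := by
      rw [mul_one_div, div_le_div_iff₀ (by positivity) (by norm_num)]
      nlinarith
    linarith
  -- the occupied protons and their electrons
  let near : Fin N → Fin M → Prop := fun i j => ‖x i - R j‖ ≤ 2 * μ ^ 2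
  classical
  let A : Finset (Fin M) := Finset.univ.filter fun j => ∃ i, near i j
  have hA : ∀ j ∈ A, ∃ i, near i j := fun j hj => (Finset.mem_filter.1 hj).2
  have : Nonempty (Fin N) := ⟨⟨0, hN⟩⟩
  choose! rep hrep using hA
  have hinj : Set.InjOn rep A := by
    intro j hj k hk hjk
    have h1 := hrep j hj
    have h2 := hrep k hk
    rw [hjk] at h1
    exact huniq _ j k h1 h2
  have hd0 : ∀ i k : Fin N, i ≠ k → 0 < ‖x i - x k‖ := fun i k hik =>
    norm_pos_iff.2 (sub_ne_zero.2 fun h => hik (hx h))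
  let F : Finset (Fin N) → ℝ := fun T =>
    ∑ i ∈ T, nearW R (μ ^ 2) C₁ (x i) + coulE (fun i k => ‖x i - x k‖) T
  have hF : ∀ (T : Finset (Fin N)) (i : Fin N), i ∉ T → A.image rep ⊆ T →
      F T - 1 / 2 ≤ F (insert i T) := by
    intro T i hi hT
    simp only [F]
    rw [Finset.sum_insert hi, coulE_insert _ (fun i k => norm_sub_rev _ _) T i hi]
    by_cases hnr : ∃ j, near i j
    · obtain ⟨j, hj⟩ := hnr
      have hjA : j ∈ A := Finset.mem_filter.2 ⟨Finset.mem_univ _, i, hj⟩
      have hrT : rep j ∈ T := hT (Finset.mem_image_of_mem _ hjA)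
      have hne : i ≠ rep j := fun h => hi (h ▸ hrT)
      have h1 : 1 / (4 * μ ^ 2) ≤ ∑ s ∈ T, 1 / ‖x i - x s‖ := by
        refine le_trans ?_ (Finset.single_le_sum (f := fun s => 1 / ‖x i - x s‖)
          (fun s _ => by positivity) hrT)
        refine one_div_le_one_div_of_le (hd0 _ _ hne) ?_
        have h2 : near (rep j) j := hrep j hjA
        have h3 : x i - x (rep j) = (x i - R j) - (x (rep j) - R j) := by abel
        rw [h3]
        refine (norm_sub_le _ _).trans ?_
        have h2' : ‖x (rep j) - R j‖ ≤ 2 * μ ^ 2 := h2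
        have hj' : ‖x i - R j‖ ≤ 2 * μ ^ 2 := hj
        linarith
      have h2 := hnear (x i) j hj
      have h3 : ∑ k ∈ Finset.univ.erase j, 1 / ‖R j - R k‖ ≤ (M : ℝ) * (1 / μ ^ 3) := by
        refine (Finset.sum_le_card_nsmul _ _ (1 / μ ^ 3) fun k hk =>
          one_div_le_one_div_of_le hμ3 (hR j k (Finset.ne_of_mem_erase hk).symm)).trans ?_
        rw [nsmul_eq_mul]
        refine mul_le_mul_of_nonneg_right ?_ (by positivity)
        have := Finset.card_erase_le (s := (Finset.univ : Finset (Fin M))) (a := j)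
        rw [Finset.card_univ, Fintype.card_fin] at this
        exact_mod_cast this
      -- `C₁/μ⁴ + M/μ³ + 4M/μ⁴ ≤ 1/(4μ²)`
      have h4 : C₁ / μ ^ 4 + (M : ℝ) * (1 / μ ^ 3) + (M : ℝ) * (4 / μ ^ 4) ≤ 1 / (4 * μ ^ 2) := by
        have e : 1 / (4 * μ ^ 2) - (C₁ / μ ^ 4 + (M : ℝ) * (1 / μ ^ 3) + (M : ℝ) * (4 / μ ^ 4)) =
            (μ ^ 2 - 4 * C₁ - 4 * M * μ - 16 * M) / (4 * μ ^ 4) := by
          field_simp
          ring
        have h5 : 0 ≤ μ ^ 2 - 4 * C₁ - 4 * M * μ - 16 * M := by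
          have h6 : (C₁ + 16) * M * μ ≤ μ * μ := mul_le_mul_of_nonneg_right hμ hμ0.le
          have h7 : 12 * M * μ ≥ 12 * M * (C₁ + 16) := by nlinarith
          nlinarith
        have h6 : 0 ≤ 1 / (4 * μ ^ 2) - (C₁ / μ ^ 4 + (M : ℝ) * (1 / μ ^ 3) +
            (M : ℝ) * (4 / μ ^ 4)) := by
          rw [e]
          positivity
        linarith
      linarith
    · push Not at hnr
      have h1 := hfar (x i) hnr
      have h2 : 0 ≤ ∑ s ∈ T, 1 / ‖x i - x s‖ := Finset.sum_nonneg fun s _ => by positivity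
      linarith
  have hF2 : ∀ U : Finset (Fin N), Disjoint (A.image rep) U →
      F (A.image rep) - (U.card : ℝ) / 2 ≤ F (A.image rep ∪ U) := by
    intro U
    induction U using Finset.induction_on with
    | empty => simp
    | insert p U hp ih =>
      intro hd
      rw [Finset.disjoint_insert_right] at hd
      rw [Finset.union_insert, Finset.card_insert_of_notMem hp]
      have h1 := ih hd.2
      have h2 := hF (A.image rep ∪ U) p (by
        rw [Finset.mem_union]
        exact fun h' => h'.elim hd.1 hp) Finset.subset_union_left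
      push_cast
      linarith
  have hcardA : (A.image rep).card = A.card := Finset.card_image_of_injOn hinj
  have hAN : A.card ≤ N := by
    rw [← hcardA]
    exact (Finset.card_le_univ _).trans (by rw [Fintype.card_fin])
  obtain ⟨S, hAS, hS⟩ := Finset.exists_superset_card_eq hAN (by rw [Fintype.card_fin]; exact hNM)
  refine ⟨S, hS, ?_⟩
  have h1 := hF2 (Finset.univ \ A.image rep) Finset.disjoint_sdiff
  rw [Finset.union_sdiff_of_subset (Finset.subset_univ _)] at h1
  have h2 : ((Finset.univ \ A.image rep).card : ℝ) = N - A.card := by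
    have := Finset.card_sdiff_add_card_eq_card (Finset.subset_univ (A.image rep))
    rw [Finset.card_univ, Fintype.card_fin, hcardA] at this
    have : (((Finset.univ \ A.image rep).card + A.card : ℕ) : ℝ) = N := by exact_mod_cast this
    push_cast at this
    linarith
  have h3 : F Finset.univ = (∑ i, nearW R (μ ^ 2) C₁ (x i)) +
      ∑ i, ∑ k ∈ Finset.Ioi i, 1 / ‖x i - x k‖ := by
    rw [pairs_eq _ fun i k => by rw [norm_sub_rev]]
    rfl
  -- the energy of the good electrons
  have hAM : (A.card : ℝ) ≤ M := by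
    have := Finset.card_le_univ A
    rw [Fintype.card_fin] at this
    exact_mod_cast this
  have hA0 : (0 : ℝ) ≤ A.card := Nat.cast_nonneg _
  have h4 : -(A.card : ℝ) / 2 + selE R A - (C₁ + 6) * (M : ℝ) ^ 2 / μ ^ 4 ≤ F (A.image rep) := by
    simp only [F]
    rw [Finset.sum_image hinj, coulE_image _ _ _ hinj, selE_eq]
    have h5 := coulE_mono (fun j k => ‖x (rep j) - x (rep k)‖) (fun j k => ‖R j - R k‖)
      (4 / μ ^ 4) A (fun j hj k hk hjk => by
        refine inv_low _ _ (hR j k hjk) (hd0 _ _ fun h => hjk (hinj hj hk h)) ?_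
        have e : x (rep j) - x (rep k) =
            (x (rep j) - R j) + (R j - R k) - (x (rep k) - R k) := by abel
        rw [e]
        have n1 : ‖x (rep j) - R j‖ ≤ 2 * μ ^ 2 := hrep j hj
        have n2 : ‖x (rep k) - R k‖ ≤ 2 * μ ^ 2 := hrep k hk
        refine (norm_sub_le _ _).trans ?_
        have n3 := norm_add_le (x (rep j) - R j) (R j - R k)
        linarith) (by positivity)
    have h6 := Finset.sum_le_sum fun j (hj : j ∈ A) => hnear (x (rep j)) j (hrep j hj)
    simp only [Finset.sum_sub_distrib, Finset.sum_const, nsmul_eq_mul] at h6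
    have h7 : (A.card : ℝ) * (C₁ / μ ^ 4) + (A.card : ℝ) * ((M : ℝ) * (4 / μ ^ 4)) +
        1 / 2 * (A.card : ℝ) ^ 2 * (4 / μ ^ 4) ≤ (C₁ + 6) * (M : ℝ) ^ 2 / μ ^ 4 := by
      have e : (C₁ + 6) * (M : ℝ) ^ 2 / μ ^ 4 - ((A.card : ℝ) * (C₁ / μ ^ 4) +
          (A.card : ℝ) * ((M : ℝ) * (4 / μ ^ 4)) + 1 / 2 * (A.card : ℝ) ^ 2 * (4 / μ ^ 4)) =
          (C₁ * (M ^ 2 - A.card) + 4 * M * (M - A.card) + 2 * (M ^ 2 - (A.card : ℝ) ^ 2)) /
            μ ^ 4 := by
        field_simp
        ring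
      have h8 : 0 ≤ C₁ * ((M : ℝ) ^ 2 - A.card) + 4 * M * (M - A.card) +
          2 * (M ^ 2 - (A.card : ℝ) ^ 2) := by
        have i1 : (A.card : ℝ) ≤ (M : ℝ) ^ 2 := by nlinarith
        have i2 : (A.card : ℝ) ^ 2 ≤ (M : ℝ) ^ 2 := pow_le_pow_left₀ hA0 hAM 2
        have i3 : 0 ≤ C₁ * ((M : ℝ) ^ 2 - A.card) := mul_nonneg hC₁.le (by linarith)
        have i4 : 0 ≤ 4 * (M : ℝ) * (M - A.card) := mul_nonneg (by linarith) (by linarith)
        linarith
      have h9 : 0 ≤ (C₁ * ((M : ℝ) ^ 2 - A.card) + 4 * M * (M - A.card) +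
          2 * (M ^ 2 - (A.card : ℝ) ^ 2)) / μ ^ 4 := by positivity
      linarith
    linarith
  have h5 := selE_mono R hAS
  rw [← h3]
  rw [h2] at h1
  have h6 : (C₁ + 6) * (M : ℝ) ^ 2 / μ ^ 4 ≤ (C₁ + 16) * (M : ℝ) ^ 2 / μ ^ 4 := by
    refine div_le_div_of_nonneg_right ?_ hμ4.le
    nlinarith
  linarith

end Vale.Agent.P370.H728
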