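import Vale.Agent.P370.H728.IsingF

/-!
Block P6 of P370: `IsingStmt`.
-/

namespace Vale.Agent.P370.H728

open Finset XorInst

theorem numeric2 (n m Q : ℝ) (hn : 0 ≤ n) (hm : 0 ≤ m) (hQ : 1000 * (n + m + 1) ≤ Q) :
    (m + 2) * (2 * Q ^ 57) * (n * (484 * (6 / (Q ^ 32) ^ 2))) +
      m * (22 * Q ^ 67 * (6 / (Q ^ 34) ^ 2)) ≤ 1 := by
  set M : ℝ := n + m + 1 with hM
  have hM1 : 1 ≤ M := by linarith
  have hQ1 : 1 ≤ Q := by linarith
  have hQ0 : 0 < Q := by linarith
  have e1 : (m + 2) * (2 * Q ^ 57) * (n * (484 * (6 / (Q ^ 32) ^ 2))) =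
      5808 * (n * (m + 2)) / Q ^ 7 := by field_simp; ring
  have e2 : m * (22 * Q ^ 67 * (6 / (Q ^ 34) ^ 2)) = 132 * m / Q := by field_simp; ring
  rw [e1, e2]
  have b1 : 5808 * (n * (m + 2)) / Q ^ 7 ≤ 1 / 2 := by
    rw [div_le_div_iff₀ (by positivity) (by norm_num)]
    have h1 : n * (m + 2) ≤ M * (2 * M) :=
      mul_le_mul (by linarith) (by linarith) (by positivity) (by linarith)
    have h2 : (1000 * M) ^ 2 ≤ Q ^ 2 := pow_le_pow_left₀ (by positivity) hQ 2
    have h3 : Q ^ 2 ≤ Q ^ 7 := pow_le_pow_right₀ hQ1 (by norm_num)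
    nlinarith
  have b2 : 132 * m / Q ≤ 1 / 2 := by
    rw [div_le_div_iff₀ hQ0 (by norm_num)]
    linarith
  linarith

section

variable (I : XorInst) (ell D Lam W : ℕ) {X : ℕ}

theorem other_bus (hell : 2 ≤ ell) (hLam : 2 ≤ Lam) (t : I.Cell X → Bool) (i : Fin I.n)
    (x' : Fin X) :
    -(I.n * (484 * (6 / (ell : ℝ) ^ 2))) ≤ ∑ j ∈ Finset.univ.erase i, ∑ y : Fin X,
      KK I ell D Lam W (.inl (i, x') : I.Cell X) (.inl (j, y)) *
        (sg (t (.inl (i, x'))) * sg (t (.inl (j, y)))) := by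
  have hell' : (2 : ℝ) ≤ ell := by exact_mod_cast hell
  have h1 : ∀ j ∈ Finset.univ.erase i, -(484 * (6 / (ell : ℝ) ^ 2)) ≤ ∑ y : Fin X,
      KK I ell D Lam W (.inl (i, x') : I.Cell X) (.inl (j, y)) *
        (sg (t (.inl (i, x'))) * sg (t (.inl (j, y)))) := by
    intro j hj
    have hij : j ≠ i := (Finset.mem_erase.1 hj).1
    set a : ℝ := |ell * ((i : ℕ) - (j : ℕ) : ℝ)| with ha
    have hij' : (1 : ℝ) ≤ |((i : ℕ) - (j : ℕ) : ℝ)| := by
      have h1 : ((i : ℕ) : ℤ) - (j : ℕ) ≠ 0 := by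
        intro h; apply hij; apply Fin.ext; omega
      have h2 : (1 : ℤ) ≤ |((i : ℕ) : ℤ) - (j : ℕ)| := Int.one_le_abs h1
      have h3 : ((1 : ℤ) : ℝ) ≤ ((|((i : ℕ) : ℤ) - (j : ℕ)| : ℤ) : ℝ) := by exact_mod_cast h2
      push_cast at h3; exact h3
    have hae : (ell : ℝ) ≤ a := by
      rw [ha, abs_mul, abs_of_pos (by linarith : (0 : ℝ) < ell)]; nlinarith
    have hfk : ∀ z : ℝ, fk (ell * ((i : ℕ) - (j : ℕ) : ℝ)) z = fk a z := by
      intro z; unfold fk; rw [ha, sq_abs]
    have h2 : ∀ y : Fin X, -(484 * fk a (((y : ℕ) : ℝ) - ((x' : ℕ) : ℝ))) ≤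
        KK I ell D Lam W (.inl (i, x') : I.Cell X) (.inl (j, y)) *
        (sg (t (.inl (i, x'))) * sg (t (.inl (j, y)))) := by
      intro y
      rw [KK_bb, hfk, ← fk_neg a, neg_sub]
      set k := fk a (((x' : ℕ) : ℝ) - ((y : ℕ) : ℝ)) with hk
      have hk0 : 0 ≤ k := fk_nonneg _ _
      have e : |Hb I Lam i x' * Hb I Lam j y * k * (sg (t (.inl (i, x'))) * sg (t (.inl (j, y))))|
          ≤ 484 * k := by
        rw [abs_mul, abs_mul (sg _), abs_sg, abs_sg, mul_one, mul_one]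
        have g1 := Hb_ge I Lam i x'
        have g2 := Hb_ge I Lam j y
        have g3 := Hb_le I Lam hLam i x'
        have g4 := Hb_le I Lam hLam j y
        rw [abs_of_nonneg (by positivity)]
        apply mul_le_mul_of_nonneg_right _ hk0
        nlinarith
      exact (abs_le.1 e).1
    refine le_trans ?_ (Finset.sum_le_sum fun y _ => h2 y)
    rw [Finset.sum_neg_distrib, neg_le_neg_iff, ← Finset.mul_sum]
    apply mul_le_mul_of_nonneg_left _ (by norm_num)
    rw [Fin.sum_univ_eq_sum_range (fun y => fk a ((y : ℝ) - ((x' : ℕ) : ℝ)))]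
    refine (sum_fk (by linarith) X (x' : ℕ) _ le_rfl (by linarith)).trans ?_
    exact div_le_div_of_nonneg_left (by norm_num) (by positivity)
      (pow_le_pow_left₀ (by linarith) hae 2)
  refine le_trans ?_ (Finset.sum_le_sum h1)
  rw [Finset.sum_const, nsmul_eq_mul, mul_neg, neg_le_neg_iff]
  apply mul_le_mul_of_nonneg_right _ (by positivity)
  have : (Finset.univ.erase i).card ≤ I.n := by
    rw [Finset.card_erase_of_mem (Finset.mem_univ _), Finset.card_univ, Fintype.card_fin]; omega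
  exact_mod_cast this

theorem mediators (hD : 2 ≤ D) (hLam : 2 ≤ Lam) (t : I.Cell X → Bool) (i : Fin I.n) (x : ℕ) :
    -(I.m * (22 * W * (6 / (D : ℝ) ^ 2))) ≤ ∑ x' : Fin X, (if (x' : ℕ) ≤ x then
      ∑ e : Fin I.m, KK I ell D Lam W (.inl (i, x') : I.Cell X) (.inr e) *
        (sg (t (.inl (i, x'))) * sg (t (.inr e))) else 0) := by
  have hD' : (2 : ℝ) ≤ D := by exact_mod_cast hD
  have hW0 : (0 : ℝ) ≤ W := Nat.cast_nonneg _
  set a : ℝ := D + ell * (i : ℕ) with ha
  have haD : (D : ℝ) ≤ a := by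
    have : (0 : ℝ) ≤ ell * ((i : ℕ) : ℝ) := by positivity
    linarith
  have h1 : ∀ (x' : Fin X) (e : Fin I.m),
      -(22 * W * fk a (((x' : ℕ) : ℝ) - (((((e : ℕ) + 1) * Lam : ℕ) : ℝ) + 1 / 2))) ≤
      KK I ell D Lam W (.inl (i, x') : I.Cell X) (.inr e) *
        (sg (t (.inl (i, x'))) * sg (t (.inr e))) := by
    intro x' e
    rw [KK_bm]
    set k := fk a (((x' : ℕ) : ℝ) - (((((e : ℕ) + 1) * Lam : ℕ) : ℝ) + 1 / 2)) with hk
    have hk0 : 0 ≤ k := fk_nonneg _ _
    have e : |Hb I Lam i x' * W * k * (sg (t (.inl (i, x'))) * sg (t (.inr e)))| ≤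
        22 * W * k := by
      rw [abs_mul, abs_mul (sg _), abs_sg, abs_sg, mul_one, mul_one]
      have g1 := Hb_ge I Lam i x'
      have g3 := Hb_le I Lam hLam i x'
      rw [abs_of_nonneg (by positivity)]
      apply mul_le_mul_of_nonneg_right _ hk0
      exact mul_le_mul_of_nonneg_right g3 hW0
    exact (abs_le.1 e).1
  have h2 : ∀ x' : Fin X, -∑ e : Fin I.m, (22 * W *
      fk a (((x' : ℕ) : ℝ) - (((((e : ℕ) + 1) * Lam : ℕ) : ℝ) + 1 / 2))) ≤
      (if (x' : ℕ) ≤ x then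
      ∑ e : Fin I.m, KK I ell D Lam W (.inl (i, x') : I.Cell X) (.inr e) *
        (sg (t (.inl (i, x'))) * sg (t (.inr e))) else 0) := by
    intro x'
    split_ifs
    · rw [← Finset.sum_neg_distrib]
      exact Finset.sum_le_sum fun e _ => h1 x' e
    · rw [neg_nonpos]
      exact Finset.sum_nonneg fun e _ => mul_nonneg (by positivity) (fk_nonneg _ _)
  refine le_trans ?_ (Finset.sum_le_sum fun x' _ => h2 x')
  rw [Finset.sum_neg_distrib, neg_le_neg_iff, Finset.sum_comm]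
  refine (Finset.sum_le_sum (fun e _ => show _ ≤ 22 * W * (6 / (D : ℝ) ^ 2) from ?_)).trans ?_
  · rw [← Finset.mul_sum]
    apply mul_le_mul_of_nonneg_left _ (by positivity)
    rw [Fin.sum_univ_eq_sum_range
      (fun y => fk a ((y : ℝ) - (((((e : ℕ) + 1) * Lam : ℕ) : ℝ) + 1 / 2)))]
    refine (sum_fk (by linarith) X (((e : ℕ) + 1) * Lam) _ (by linarith) (by linarith)).trans ?_
    exact div_le_div_of_nonneg_left (by norm_num) (by positivity)
      (pow_le_pow_left₀ (by linarith) haD 2)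
  · rw [Finset.sum_const, Finset.card_univ, Fintype.card_fin, nsmul_eq_mul]

/-- Flipping one end of a bus at a defect lowers the energy. -/
theorem defect_flip (q : ℕ) (hq : 1000 * (I.n + I.m + 1) ≤ q)
    (hell : ell = q ^ 32) (hD : D = q ^ 34) (hLam : Lam = 2 * q ^ 57)
    (hW : W = q ^ 67) (hX : X = (I.m + 2) * Lam) (t : I.Cell X → Bool) (i : Fin I.n) (x : ℕ)
    (hx : x + 1 < X)
    (hdef : t (.inl (i, ⟨x + 1, hx⟩)) = t (.inl (i, ⟨x, by omega⟩))) :
    I.ising ell D Lam W (fun c => if flp I i x c then !(t c) else t c) <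
      I.ising ell D Lam W t := by
  have hq1 : 1000 ≤ q := by omega
  have hell2 : 2 ≤ ell := by
    rw [hell]; calc 2 ≤ q ^ 1 := by rw [pow_one]; omega
      _ ≤ q ^ 32 := Nat.pow_le_pow_right (by omega) (by norm_num)
  have hD2 : 2 ≤ D := by
    rw [hD]; calc 2 ≤ q ^ 1 := by rw [pow_one]; omega
      _ ≤ q ^ 34 := Nat.pow_le_pow_right (by omega) (by norm_num)
  have hLam2 : 2 ≤ Lam := by
    have : 1 ≤ q ^ 57 := Nat.one_le_pow _ _ (by omega)
    omega
  obtain ⟨d, hd⟩ := Nat.exists_eq_add_of_le (show x + 1 ≤ X by omega)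
  have hd1 : 1 ≤ d := by omega
  -- numerical values
  have hnum := numeric2 (I.n : ℝ) (I.m : ℝ) (q : ℝ) (Nat.cast_nonneg _) (Nat.cast_nonneg _)
    (by exact_mod_cast hq)
  have cX : (X : ℝ) = ((I.m : ℝ) + 2) * (2 * (q : ℝ) ^ 57) := by rw [hX, hLam]; push_cast; ring
  have cell : (ell : ℝ) = (q : ℝ) ^ 32 := by rw [hell]; push_cast; ring
  have cD : (D : ℝ) = (q : ℝ) ^ 34 := by rw [hD]; push_cast; ring
  have cW : (W : ℝ) = (q : ℝ) ^ 67 := by rw [hW]; push_cast; ring
  rw [← cX, ← cell, ← cD, ← cW] at hnum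
  rw [ising_eq, ising_eq]
  set K := KK I ell D Lam W (X := X) with hK
  set χ : I.Cell X → ℝ := fun c => if flp I i x c then (1 : ℝ) else 0 with hχ
  have hs : ∀ c, sg (if flp I i x c then !(t c) else t c) = (1 - 2 * χ c) * sg (t c) := by
    intro c
    simp only [hχ]
    split_ifs
    · rw [sg_not]; ring
    · ring
  simp only [hs]
  rw [flip_form K (KK_symm I ell D Lam W) (fun c => sg (t c)) χ]
  have hcross := cross_expand I i x (fun c c' => K c c' * (sg (t c) * sg (t c')))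
  have hpos : 0 < ∑ c, ∑ c', χ c * (1 - χ c') * (K c c' * (sg (t c) * sg (t c'))) := by
    rw [hcross]
    have p1 : 37 ≤ ∑ x' : Fin X, (if (x' : ℕ) ≤ x then
        ∑ y : Fin X, (if (y : ℕ) ≤ x then 0 else K (.inl (i, x')) (.inl (i, y)) *
          (sg (t (.inl (i, x'))) * sg (t (.inl (i, y))))) else 0) := by
      subst hd
      apply same_bus x d hd1 (fun x' y => K (.inl (i, x')) (.inl (i, y)) *
          (sg (t (.inl (i, x'))) * sg (t (.inl (i, y)))))
      · intro x' y hx' hy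
        simp only [hK]
        rw [KK_bb, sub_self, mul_zero]
        have hz : (0 : ℝ) < ((y : ℕ) : ℝ) - ((x' : ℕ) : ℝ) := by
          have : ((x' : ℕ) : ℝ) < ((y : ℕ) : ℝ) := by exact_mod_cast (by omega)
          linarith
        set k := fk 0 (((x' : ℕ) : ℝ) - ((y : ℕ) : ℝ)) with hk
        have hk0 : 0 ≤ k := fk_nonneg _ _
        have hk1 : k ≤ 1 / (((y : ℕ) : ℝ) - ((x' : ℕ) : ℝ)) ^ 3 := by
          rw [hk, ← fk_neg, neg_sub]; exact fk_le_z hz 0
        have e : |Hb I Lam i x' * Hb I Lam i y * k *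
            (sg (t (.inl (i, x'))) * sg (t (.inl (i, y))))| ≤ 484 * k := by
          rw [abs_mul, abs_mul (sg _), abs_sg, abs_sg, mul_one, mul_one]
          have g1 := Hb_ge I Lam i x'
          have g2 := Hb_ge I Lam i y
          have g3 := Hb_le I Lam hLam2 i x'
          have g4 := Hb_le I Lam hLam2 i y
          rw [abs_of_nonneg (by positivity)]
          apply mul_le_mul_of_nonneg_right _ hk0
          nlinarith
        have := (abs_le.1 e).1
        linarith
      · intro x' y hx' hy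
        simp only [hK]
        rw [KK_bb, sub_self, mul_zero]
        have hsg : sg (t (.inl (i, x'))) * sg (t (.inl (i, y))) = 1 := by
          have h1 : t (.inl (i, y)) = t (.inl (i, x')) := by
            have e1 : t (.inl (i, y)) = t (.inl (i, ⟨x + 1, hx⟩)) := by
              congr 3; exact Fin.ext hy
            have e2 : t (.inl (i, x')) = t (.inl (i, ⟨x, by omega⟩)) := by
              congr 3; exact Fin.ext hx'
            rw [e1, e2]; exact hdef
          rw [h1, sg_sq]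
        rw [hsg, mul_one]
        have hk : fk 0 (((x' : ℕ) : ℝ) - ((y : ℕ) : ℝ)) = 1 := by
          rw [hx', hy]; push_cast
          rw [show (x : ℝ) - (x + 1) = -1 by ring]
          unfold fk; norm_num
        rw [hk, mul_one]
        have g1 := Hb_ge I Lam i x'
        have g2 := Hb_ge I Lam i y
        nlinarith
    have p2 : -(X * (I.n * (484 * (6 / (ell : ℝ) ^ 2)))) ≤
        ∑ x' : Fin X, (if (x' : ℕ) ≤ x then
        ∑ j ∈ Finset.univ.erase i, ∑ y : Fin X, K (.inl (i, x')) (.inl (j, y)) *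
          (sg (t (.inl (i, x'))) * sg (t (.inl (j, y)))) else 0) := by
      have h1 : ∀ x' : Fin X, -(I.n * (484 * (6 / (ell : ℝ) ^ 2))) ≤ (if (x' : ℕ) ≤ x then
        ∑ j ∈ Finset.univ.erase i, ∑ y : Fin X, K (.inl (i, x')) (.inl (j, y)) *
          (sg (t (.inl (i, x'))) * sg (t (.inl (j, y)))) else 0) := by
        intro x'
        split_ifs
        · exact other_bus I ell D Lam W hell2 hLam2 t i x'
        · rw [neg_nonpos]; positivity
      refine le_trans ?_ (Finset.sum_le_sum fun x' _ => h1 x')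
      rw [Finset.sum_const, Finset.card_univ, Fintype.card_fin, nsmul_eq_mul, mul_neg]
    have p3 := mediators I ell D Lam W hD2 hLam2 t i x
    linarith
  linarith

end

/-- Block P6 of P370. -/
theorem isingStmt : XorInst.IsingStmt := by
  intro I q hq ell D Lam W X hell hD hLam hW hX
  refine ⟨1 / 2 * ∑ i, BB I ell Lam X i i, fun s v =>
    ord_bound I q hq ell D Lam W X hell hD hLam hW hX s v, fun t => ?_⟩
  obtain ⟨t₀, ht₀⟩ := Finite.exists_min (fun t : I.Cell X → Bool => I.ising ell D Lam W t)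
  have hq1 : 1000 ≤ q := by omega
  have hLam2 : 2 ≤ Lam := by
    have : 1 ≤ q ^ 57 := Nat.one_le_pow _ _ (by omega)
    omega
  have hX0 : 0 < X := by rw [hX]; positivity
  have halt : ∀ (i : Fin I.n) (x : ℕ) (hx : x + 1 < X),
      t₀ (.inl (i, ⟨x + 1, hx⟩)) = !(t₀ (.inl (i, ⟨x, by omega⟩))) := by
    intro i x hx
    by_contra hne
    have hdef : t₀ (.inl (i, ⟨x + 1, hx⟩)) = t₀ (.inl (i, ⟨x, by omega⟩)) := by
      revert hne
      cases t₀ (.inl (i, ⟨x + 1, hx⟩)) <;> cases t₀ (.inl (i, ⟨x, by omega⟩)) <;> simp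
    exact absurd (ht₀ _) (not_le.2
      (defect_flip I ell D Lam W q hq hell hD hLam hW hX t₀ i x hx hdef))
  have hval : ∀ (i : Fin I.n) (x : ℕ) (hx : x < X), t₀ (.inl (i, ⟨x, hx⟩)) =
      if x % 2 = 0 then t₀ (.inl (i, ⟨0, hX0⟩)) else !(t₀ (.inl (i, ⟨0, hX0⟩))) := by
    intro i x
    induction x with
    | zero => intro hx; simp
    | succ x ih =>
      intro hx
      rw [halt i x hx, ih (by omega)]
      by_cases h : x % 2 = 0
      · rw [if_pos h, if_neg (by omega)]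
      · rw [if_neg h, if_pos (by omega), Bool.not_not]
  refine ⟨fun i => t₀ (.inl (i, ⟨0, hX0⟩)), fun e => t₀ (.inr e), ?_⟩
  have e : (I.ord (fun i => t₀ (.inl (i, ⟨0, hX0⟩))) (fun e => t₀ (.inr e)) :
      I.Cell X → Bool) = t₀ := by
    funext c
    rcases c with ⟨i, x⟩ | e
    · simp only [XorInst.ord]
      exact (hval i x x.2).symm
    · rfl
  rw [e]
  exact ht₀ t

end Vale.Agent.P370.H728
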