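import Vale.Agent.P370.Xor

/-!
Block P6 of P370, part A: elementary bounds for the dipole kernel on the line, alternating sums.
-/

namespace Vale.Agent.P370.H728

open Finset

/-- The kernel `1 / (z² + a²)^{3/2}`. -/
noncomputable def fk (a z : ℝ) : ℝ := 1 / Real.sqrt (z ^ 2 + a ^ 2) ^ 3

theorem fk_nonneg (a z : ℝ) : 0 ≤ fk a z := by unfold fk; positivity

theorem fk_neg (a z : ℝ) : fk a (-z) = fk a z := by unfold fk; rw [neg_sq]

theorem fk_neg' (a z : ℝ) : fk (-a) z = fk a z := by unfold fk; rw [neg_sq]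

theorem fk_abs (a z : ℝ) : fk a |z| = fk a z := by unfold fk; rw [sq_abs]

theorem fk_le_of_le {a z r : ℝ} (hr : 0 < r) (h : r ^ 2 ≤ z ^ 2 + a ^ 2) : fk a z ≤ 1 / r ^ 3 := by
  unfold fk
  have h1 : r ≤ Real.sqrt (z ^ 2 + a ^ 2) := Real.le_sqrt_of_sq_le h
  exact one_div_le_one_div_of_le (by positivity) (pow_le_pow_left₀ hr.le h1 3)

theorem fk_le_a {a : ℝ} (ha : 0 < a) (z : ℝ) : fk a z ≤ 1 / a ^ 3 :=
  fk_le_of_le ha (by nlinarith [sq_nonneg z])

theorem fk_le_z {z : ℝ} (hz : 0 < z) (a : ℝ) : fk a z ≤ 1 / z ^ 3 :=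
  fk_le_of_le hz (by nlinarith [sq_nonneg a])

theorem fk_anti {a z z' : ℝ} (ha : 0 < a) (h : |z| ≤ |z'|) : fk a z' ≤ fk a z := by
  unfold fk
  have h1 : z ^ 2 ≤ z' ^ 2 := sq_le_sq.2 h
  have h2 : 0 < Real.sqrt (z ^ 2 + a ^ 2) := Real.sqrt_pos.2 (by positivity)
  exact one_div_le_one_div_of_le (by positivity)
    (pow_le_pow_left₀ h2.le (Real.sqrt_le_sqrt (by linarith)) 3)

theorem fk_le_sum {a z r : ℝ} (ha : 0 < a) (hr : 0 ≤ r) (hz : r ≤ |z|) :
    fk a z ≤ 3 / (a + r) ^ 3 := by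
  have hp : 0 < a + r := by linarith
  have h0 : r ^ 2 ≤ z ^ 2 := by
    rw [← sq_abs z]; exact pow_le_pow_left₀ hr hz 2
  have h1 : fk a z ≤ 1 / ((7 / 10) * (a + r)) ^ 3 := by
    apply fk_le_of_le (by positivity)
    nlinarith [sq_nonneg (a - r)]
  refine h1.trans ?_
  rw [div_le_div_iff₀ (by positivity) (by positivity)]
  have h2 : 0 < (a + r) ^ 3 := by positivity
  nlinarith

/-- Partial sums of an alternating series with nonnegative antitone terms. -/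
theorem alt_bound (N : ℕ) : ∀ (g : ℕ → ℝ), Antitone g → (∀ k, 0 ≤ g k) →
    0 ≤ ∑ k ∈ range N, (-1 : ℝ) ^ k * g k ∧ ∑ k ∈ range N, (-1 : ℝ) ^ k * g k ≤ g 0 := by
  induction N with
  | zero => intro g _ h0; simpa using h0 0
  | succ N ih =>
    intro g hg h0
    obtain ⟨h1, h2⟩ := ih (fun k => g (k + 1)) (fun a b hab => hg (by omega)) (fun k => h0 _)
    have e : ∑ k ∈ range (N + 1), (-1 : ℝ) ^ k * g k =
        g 0 - ∑ k ∈ range N, (-1 : ℝ) ^ k * g (k + 1) := by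
      rw [Finset.sum_range_succ']
      simp only [pow_succ, pow_zero, one_mul]
      rw [add_comm, sub_eq_add_neg, ← Finset.sum_neg_distrib]
      congr 1
      refine Finset.sum_congr rfl fun k _ => by ring
    rw [e]
    have h3 : g 1 ≤ g 0 := hg (by omega)
    simp only [zero_add] at h2
    constructor <;> linarith

theorem abs_alt (g : ℕ → ℝ) (hg : Antitone g) (h0 : ∀ k, 0 ≤ g k) (N : ℕ) :
    |∑ k ∈ range N, (-1 : ℝ) ^ k * g k| ≤ g 0 := by
  obtain ⟨h1, h2⟩ := alt_bound N g hg h0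
  rw [abs_le]; constructor <;> linarith [h0 0]

/-- Difference of two partial sums of an alternating series. -/
theorem alt_diff (g : ℕ → ℝ) (hg : Antitone g) (h0 : ∀ k, 0 ≤ g k) (L N₁ N₂ : ℕ)
    (h1 : L ≤ N₁) (h2 : L ≤ N₂) :
    |∑ k ∈ range N₁, (-1 : ℝ) ^ k * g k - ∑ k ∈ range N₂, (-1 : ℝ) ^ k * g k| ≤ g L := by
  have key : ∀ N M : ℕ, L ≤ N → N ≤ M →
      |∑ k ∈ range M, (-1 : ℝ) ^ k * g k - ∑ k ∈ range N, (-1 : ℝ) ^ k * g k| ≤ g L := by
    intro N M hL hNM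
    obtain ⟨d, rfl⟩ := Nat.exists_eq_add_of_le hNM
    rw [Finset.sum_range_add, add_sub_cancel_left]
    have e : ∑ x ∈ range d, (-1 : ℝ) ^ (N + x) * g (N + x) =
        (-1) ^ N * ∑ x ∈ range d, (-1 : ℝ) ^ x * g (N + x) := by
      rw [Finset.mul_sum]
      exact Finset.sum_congr rfl fun x _ => by rw [pow_add]; ring
    rw [e, abs_mul, abs_pow, abs_neg, abs_one, one_pow, one_mul]
    refine (abs_alt (fun x => g (N + x)) (fun a b hab => hg (by omega)) (fun k => h0 _) d).trans ?_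
    exact hg (by omega)
  rcases le_total N₁ N₂ with h | h
  · rw [abs_sub_comm]; exact key _ _ h1 h
  · exact key _ _ h2 h

theorem antitone_fk {a : ℝ} (ha : 0 < a) {c : ℝ} (hc : 0 ≤ c) :
    Antitone (fun k : ℕ => fk a ((k : ℝ) + c)) := by
  intro k l hkl
  apply fk_anti ha
  have h1 : (k : ℝ) ≤ l := by exact_mod_cast hkl
  rw [abs_of_nonneg (by positivity), abs_of_nonneg (by positivity)]
  linarith

/-- Alternating sum of the kernel centred at an integer. -/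
theorem alt_int {a : ℝ} (ha : 0 < a) (N x : ℕ) (hx : x < N) :
    |∑ y ∈ range N, (-1 : ℝ) ^ y * fk a ((x : ℝ) - y)| ≤ 2 / a ^ 3 := by
  obtain ⟨d, rfl⟩ := Nat.exists_eq_add_of_le hx.le
  rw [Finset.sum_range_add]
  have e1 : ∑ y ∈ range d, (-1 : ℝ) ^ (x + y) * fk a ((x : ℝ) - ((x + y : ℕ) : ℝ)) =
      (-1) ^ x * ∑ y ∈ range d, (-1 : ℝ) ^ y * fk a ((y : ℝ) + 0) := by
    rw [Finset.mul_sum]
    refine Finset.sum_congr rfl fun y _ => ?_
    rw [pow_add]; push_cast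
    rw [show (x : ℝ) - (x + y) = -(y + 0) by ring, fk_neg]; ring
  have e2 : ∑ y ∈ range x, (-1 : ℝ) ^ y * fk a ((x : ℝ) - (y : ℝ)) =
      -(-1) ^ x * ∑ y ∈ range x, (-1 : ℝ) ^ y * fk a ((y : ℝ) + 1) := by
    rw [← Finset.sum_range_reflect, Finset.mul_sum]
    refine Finset.sum_congr rfl fun y hy => ?_
    have hy' : y < x := Finset.mem_range.1 hy
    have h1 : x - 1 - y + (y + 1) = x := by omega
    have h2 : ((x - 1 - y : ℕ) : ℝ) = (x : ℝ) - (y + 1) := by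
      have : ((x - 1 - y + (y + 1) : ℕ) : ℝ) = (x : ℝ) := by rw [h1]
      push_cast at this; linarith
    have h3 : (-1 : ℝ) ^ (x - 1 - y) = -(-1) ^ x * (-1) ^ y := by
      conv_rhs => rw [← h1, pow_add, pow_succ]
      have : ((-1 : ℝ) ^ y) * (-1) ^ y = 1 := by
        rw [← pow_add, ← two_mul, pow_mul]; norm_num
      linear_combination (-1 : ℝ) * (-1) ^ (x - 1 - y) * this
    rw [h3, h2, show (x : ℝ) - (x - (y + 1)) = y + 1 by ring]; ring
  rw [e1, e2]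
  have b1 := abs_alt (fun k : ℕ => fk a ((k : ℝ) + 0)) (antitone_fk ha le_rfl)
    (fun k => fk_nonneg _ _) d
  have b2 := abs_alt (fun k : ℕ => fk a ((k : ℝ) + 1)) (antitone_fk ha zero_le_one)
    (fun k => fk_nonneg _ _) x
  have c1 := fk_le_a ha (((0 : ℕ) : ℝ) + 0)
  have c2 := fk_le_a ha (((0 : ℕ) : ℝ) + 1)
  refine (abs_add_le _ _).trans ?_
  rw [abs_mul, abs_mul, abs_neg, abs_pow, abs_neg, abs_one, one_pow, one_mul, one_mul]
  have : 2 / a ^ 3 = 1 / a ^ 3 + 1 / a ^ 3 := by ring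
  rw [this]; exact add_le_add (b2.trans c2) (b1.trans c1)

/-- Alternating sum of the kernel centred at a half-integer: the two sides cancel up to the
tails. -/
theorem alt_half {a : ℝ} (ha : 0 < a) (N x L : ℕ) (hx : Even x) (hL : 0 < L) (h1 : L ≤ x)
    (h2 : x + 1 + L ≤ N) :
    |∑ y ∈ range N, (-1 : ℝ) ^ y * fk a ((y : ℝ) - ((x : ℝ) + 1 / 2))| ≤ 1 / (L : ℝ) ^ 3 := by
  obtain ⟨d, rfl⟩ := Nat.exists_eq_add_of_le (show x + 1 ≤ N by omega)
  rw [Finset.sum_range_add]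
  have e1 : ∑ y ∈ range d, (-1 : ℝ) ^ (x + 1 + y) *
      fk a (((x + 1 + y : ℕ) : ℝ) - ((x : ℝ) + 1 / 2)) =
      - ∑ y ∈ range d, (-1 : ℝ) ^ y * fk a ((y : ℝ) + 1 / 2) := by
    rw [← Finset.sum_neg_distrib]
    refine Finset.sum_congr rfl fun y _ => ?_
    rw [pow_add, pow_succ, hx.neg_one_pow]; push_cast
    rw [show (x : ℝ) + 1 + y - (x + 1 / 2) = y + 1 / 2 by ring]; ring
  have e2 : ∑ y ∈ range (x + 1), (-1 : ℝ) ^ y * fk a ((y : ℝ) - ((x : ℝ) + 1 / 2)) =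
      ∑ y ∈ range (x + 1), (-1 : ℝ) ^ y * fk a ((y : ℝ) + 1 / 2) := by
    rw [← Finset.sum_range_reflect]
    refine Finset.sum_congr rfl fun y hy => ?_
    have hy' : y < x + 1 := Finset.mem_range.1 hy
    have h1 : x + 1 - 1 - y + y = x := by omega
    have h2 : ((x + 1 - 1 - y : ℕ) : ℝ) = (x : ℝ) - y := by
      have : ((x + 1 - 1 - y + y : ℕ) : ℝ) = (x : ℝ) := by rw [h1]
      push_cast at this; push_cast; linarith
    have h3 : (-1 : ℝ) ^ (x + 1 - 1 - y) = (-1) ^ y := by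
      have h4 : (-1 : ℝ) ^ (x + 1 - 1 - y) * (-1) ^ y = 1 := by
        rw [← pow_add, h1, hx.neg_one_pow]
      have h5 : ((-1 : ℝ) ^ y) * (-1) ^ y = 1 := by
        rw [← pow_add, ← two_mul, pow_mul]; norm_num
      linear_combination ((-1 : ℝ) ^ y) * h4 - ((-1 : ℝ) ^ (x + 1 - 1 - y)) * h5
    rw [h3, h2, show (x : ℝ) - y - (x + 1 / 2) = -(y + 1 / 2) by ring, fk_neg]
  rw [e1, e2, ← sub_eq_add_neg]
  refine (alt_diff (fun k : ℕ => fk a ((k : ℝ) + 1 / 2)) (antitone_fk ha (by norm_num))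
    (fun k => fk_nonneg _ _) L _ _ (by omega) (by omega)).trans ?_
  have hL' : (0 : ℝ) < L := by exact_mod_cast hL
  refine (fk_le_z (by positivity) a).trans ?_
  exact one_div_le_one_div_of_le (by positivity) (pow_le_pow_left₀ hL'.le (by linarith) 3)

/-- Telescoping bound for `∑ 1/(a+k)³`. -/
theorem tele3 {a : ℝ} (ha : 1 < a) (N : ℕ) :
    ∑ k ∈ range N, 1 / (a + (k : ℝ)) ^ 3 ≤
      1 / 2 * (1 / ((a - 1) * a) - 1 / ((a + N - 1) * (a + N))) := by
  induction N with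
  | zero => simp
  | succ N ih =>
    rw [Finset.sum_range_succ]
    have h0 : (0 : ℝ) ≤ N := Nat.cast_nonneg N
    set b : ℝ := a + N with hb
    have hb1 : 1 < b := by linarith
    have hb0 : 0 < b - 1 := by linarith
    have key : 1 / b ^ 3 ≤ 1 / 2 * (1 / ((b - 1) * b) - 1 / (b * (b + 1))) := by
      have e : 1 / 2 * (1 / ((b - 1) * b) - 1 / (b * (b + 1))) = 1 / ((b - 1) * b * (b + 1)) := by
        have : b ≠ 0 := by positivity
        have : b - 1 ≠ 0 := hb0.ne'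
        have : b + 1 ≠ 0 := by positivity
        field_simp; ring
      rw [e]
      apply one_div_le_one_div_of_le (by positivity)
      nlinarith
    push_cast
    have e1 : a + ((N : ℝ) + 1) - 1 = b := by rw [hb]; ring
    have e2 : a + ((N : ℝ) + 1) = b + 1 := by rw [hb]; ring
    rw [e2, show b + 1 - 1 = b by ring]
    linarith

theorem tele3' {a : ℝ} (ha : 1 < a) (N : ℕ) :
    ∑ k ∈ range N, 1 / (a + (k : ℝ)) ^ 3 ≤ 1 / 2 * (1 / ((a - 1) * a)) := by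
  refine (tele3 ha N).trans ?_
  have h0 : (0 : ℝ) ≤ N := Nat.cast_nonneg N
  have : 0 ≤ 1 / ((a + N - 1) * (a + N)) := by
    have : 0 < a + N - 1 := by linarith
    positivity
  linarith

/-- The sum of the kernel over the integers, centred in `[x, x+1]`. -/
theorem sum_fk {a : ℝ} (ha : 2 ≤ a) (N x : ℕ) (c : ℝ) (hc1 : (x : ℝ) ≤ c) (hc2 : c ≤ x + 1) :
    ∑ y ∈ range N, fk a ((y : ℝ) - c) ≤ 6 / a ^ 2 := by
  have ha0 : 0 < a := by linarith
  have h1 : ∑ y ∈ range N, fk a ((y : ℝ) - c) ≤ ∑ y ∈ range (x + 1 + N), fk a ((y : ℝ) - c) :=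
    Finset.sum_le_sum_of_subset_of_nonneg (Finset.range_subset_range.2 (by omega))
      (fun _ _ _ => fk_nonneg _ _)
  refine h1.trans ?_
  rw [Finset.sum_range_add, ← Finset.sum_range_reflect]
  have b1 : ∑ y ∈ range (x + 1), fk a (((x + 1 - 1 - y : ℕ) : ℝ) - c) ≤
      ∑ y ∈ range (x + 1), 3 * (1 / (a + (y : ℝ)) ^ 3) := by
    refine Finset.sum_le_sum fun y hy => ?_
    have hy' : y < x + 1 := Finset.mem_range.1 hy
    have h2 : ((x + 1 - 1 - y : ℕ) : ℝ) = (x : ℝ) - y := by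
      have : ((x + 1 - 1 - y + y : ℕ) : ℝ) = (x : ℝ) := by rw [show x + 1 - 1 - y + y = x by omega]
      push_cast at this; push_cast; linarith
    rw [h2]
    have h3 : (y : ℝ) ≤ |(x : ℝ) - y - c| := by
      rw [abs_sub_comm]
      exact le_trans (by linarith) (le_abs_self _)
    have := fk_le_sum ha0 (Nat.cast_nonneg y) h3
    rw [mul_one_div]; exact this
  have b2 : ∑ y ∈ range N, fk a (((x + 1 + y : ℕ) : ℝ) - c) ≤
      ∑ y ∈ range N, 3 * (1 / (a + (y : ℝ)) ^ 3) := by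
    refine Finset.sum_le_sum fun y _ => ?_
    have h3 : (y : ℝ) ≤ |((x + 1 + y : ℕ) : ℝ) - c| := by
      push_cast
      exact le_trans (by linarith) (le_abs_self _)
    have := fk_le_sum ha0 (Nat.cast_nonneg y) h3
    rw [mul_one_div]; exact this
  rw [← Finset.mul_sum] at b1 b2
  have c1 := tele3' (show 1 < a by linarith) (x + 1)
  have c2 := tele3' (show 1 < a by linarith) N
  have c3 : 1 / ((a - 1) * a) ≤ 2 / a ^ 2 := by
    rw [div_le_div_iff₀ (by nlinarith) (by positivity)]; nlinarith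
  have : 6 / a ^ 2 = 3 * (2 / a ^ 2) := by ring
  rw [this]; linarith

/-- The double sum across a defect. -/
theorem defect_sum (N x : ℕ) :
    ∑ x' ∈ range (x + 1), ∑ y ∈ range N,
      1 / (((x + 1 + y : ℕ) : ℝ) - ((x - x' : ℕ) : ℝ)) ^ 3 ≤ 7 / 4 := by
  have e : ∀ x' ∈ range (x + 1), ∀ y : ℕ,
      (((x + 1 + y : ℕ) : ℝ) - ((x - x' : ℕ) : ℝ)) = (x' : ℝ) + 1 + y := by
    intro x' hx' y
    have h : x' ≤ x := by have := Finset.mem_range.1 hx'; omega
    rw [Nat.cast_sub h]; push_cast; ring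
  have e' : ∑ x' ∈ range (x + 1), ∑ y ∈ range N,
      1 / (((x + 1 + y : ℕ) : ℝ) - ((x - x' : ℕ) : ℝ)) ^ 3 =
      ∑ x' ∈ range (x + 1), ∑ y ∈ range N, 1 / ((x' : ℝ) + 1 + (y : ℝ)) ^ 3 := by
    refine Finset.sum_congr rfl fun x' hx' => Finset.sum_congr rfl fun y _ => ?_
    rw [e x' hx' y]
  rw [e', Finset.sum_range_succ']
  -- the row `x' = 0`
  have r0 : ∑ y ∈ range N, 1 / (((0 : ℕ) : ℝ) + 1 + (y : ℝ)) ^ 3 ≤ 5 / 4 := by
    rcases N with _ | N
    · norm_num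
    · rw [Finset.sum_range_succ']
      have h := tele3' (show (1 : ℝ) < 2 by norm_num) N
      have e2 : ∑ y ∈ range N, 1 / (((0 : ℕ) : ℝ) + 1 + ((y + 1 : ℕ) : ℝ)) ^ 3 =
          ∑ y ∈ range N, 1 / ((2 : ℝ) + (y : ℝ)) ^ 3 := by
        refine Finset.sum_congr rfl fun y _ => ?_
        push_cast; congr 2; ring
      rw [e2]; norm_num at h ⊢; linarith
  -- the other rows
  have r1 : ∀ k : ℕ, ∑ y ∈ range N, 1 / (((k + 1 : ℕ) : ℝ) + 1 + (y : ℝ)) ^ 3 ≤
      1 / 2 * (1 / ((k : ℝ) + 1) - 1 / ((k : ℝ) + 2)) := by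
    intro k
    have hk : (0 : ℝ) ≤ k := Nat.cast_nonneg k
    have h := tele3' (show (1 : ℝ) < (k : ℝ) + 2 by linarith) N
    have e2 : ∑ y ∈ range N, 1 / (((k + 1 : ℕ) : ℝ) + 1 + (y : ℝ)) ^ 3 =
          ∑ y ∈ range N, 1 / ((k : ℝ) + 2 + (y : ℝ)) ^ 3 := by
      refine Finset.sum_congr rfl fun y _ => ?_
      push_cast; congr 2; ring
    rw [e2]
    refine h.trans (le_of_eq ?_)
    have : (k : ℝ) + 1 ≠ 0 := by positivity
    have : (k : ℝ) + 2 ≠ 0 := by positivity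
    have : (k : ℝ) + 2 - 1 ≠ 0 := by
      have : (0 : ℝ) < (k : ℝ) + 2 - 1 := by linarith
      exact this.ne'
    field_simp
    ring
  have r2 : ∀ M : ℕ, ∑ k ∈ range M, 1 / 2 * (1 / ((k : ℝ) + 1) - 1 / ((k : ℝ) + 2)) ≤
      1 / 2 * (1 - 1 / ((M : ℝ) + 1)) := by
    intro M
    induction M with
    | zero => simp
    | succ M ih =>
      rw [Finset.sum_range_succ]
      push_cast
      rw [show (M : ℝ) + 1 + 1 = M + 2 by ring]
      linarith
  have r3 := Finset.sum_le_sum fun k (_ : k ∈ range x) => r1 k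
  have r4 := r2 x
  have r5 : 0 ≤ 1 / ((x : ℝ) + 1) := by positivity
  linarith

end Vale.Agent.P370.H728
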