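import Vale.Agent.P370.H728.IsingA

/-!
Block P6 of P370, part B: the Ising energy as a quadratic form, flips, contacts.
-/

namespace Vale.Agent.P370.H728

open Finset XorInst

theorem sg_sq (b : Bool) : sg b * sg b = 1 := by cases b <;> simp [sg]

theorem sg_not (b : Bool) : sg (!b) = - sg b := by cases b <;> simp [sg]

theorem abs_sg (b : Bool) : |sg b| = 1 := by cases b <;> simp [sg]

theorem sg_le_one (b : Bool) : sg b ≤ 1 := by cases b <;> norm_num [sg]

theorem neg_one_le_sg (b : Bool) : -1 ≤ sg b := by cases b <;> norm_num [sg]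

theorem sg_alt (b : Bool) (x : ℕ) : sg (if x % 2 = 0 then b else !b) = sg b * (-1) ^ x := by
  by_cases h : x % 2 = 0
  · rw [if_pos h, (Nat.even_iff.2 h).neg_one_pow, mul_one]
  · rw [if_neg h, (Nat.odd_iff.2 (by omega)).neg_one_pow, sg_not]; ring

/-- Change of a quadratic form when some signs are flipped (`χ` is the indicator function). -/
theorem flip_form {κ : Type} [Fintype κ] (K : κ → κ → ℝ) (hK : ∀ c c', K c c' = K c' c)
    (σ χ : κ → ℝ) :
    1 / 2 * ∑ c, ∑ c', K c c' * (((1 - 2 * χ c) * σ c) * ((1 - 2 * χ c') * σ c')) =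
      1 / 2 * ∑ c, ∑ c', K c c' * (σ c * σ c') -
        2 * ∑ c, ∑ c', χ c * (1 - χ c') * (K c c' * (σ c * σ c')) := by
  have h1 : ∑ c, ∑ c', χ c' * (1 - χ c) * (K c c' * (σ c * σ c')) =
      ∑ c, ∑ c', χ c * (1 - χ c') * (K c c' * (σ c * σ c')) := by
    rw [Finset.sum_comm]
    refine Finset.sum_congr rfl fun c _ => Finset.sum_congr rfl fun c' _ => ?_
    rw [hK c' c, mul_comm (σ c') (σ c)]
  have h2 : ∑ c, ∑ c', K c c' * (((1 - 2 * χ c) * σ c) * ((1 - 2 * χ c') * σ c')) =
      ∑ c, ∑ c', K c c' * (σ c * σ c') -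
        2 * ∑ c, ∑ c', χ c * (1 - χ c') * (K c c' * (σ c * σ c')) -
        2 * ∑ c, ∑ c', χ c' * (1 - χ c) * (K c c' * (σ c * σ c')) := by
    simp only [Finset.mul_sum, ← Finset.sum_sub_distrib]
    refine Finset.sum_congr rfl fun c _ => Finset.sum_congr rfl fun c' _ => by ring
  rw [h2, h1]; ring

section

variable (I : XorInst) (ell D Lam W : ℕ) {X : ℕ}

/-- The interaction of two cells. -/
noncomputable def KK (c c' : I.Cell X) : ℝ :=
  (I.hgt Lam W c : ℝ) * I.hgt Lam W c' *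
    fk (I.cy ell D c - I.cy ell D c') (I.cx Lam c - I.cx Lam c')

theorem KK_symm (c c' : I.Cell X) : KK I ell D Lam W c c' = KK I ell D Lam W c' c := by
  unfold KK
  rw [← fk_neg, ← fk_neg', neg_sub, neg_sub]; ring

theorem ising_eq (t : I.Cell X → Bool) :
    I.ising ell D Lam W t =
      1 / 2 * ∑ c, ∑ c', KK I ell D Lam W c c' * (sg (t c) * sg (t c')) := by
  unfold XorInst.ising
  congr 1
  refine Finset.sum_congr rfl fun c _ => ?_
  rw [Finset.sum_erase]
  · refine Finset.sum_congr rfl fun c' _ => ?_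
    unfold KK fk XorInst.dst; ring
  · unfold XorInst.dst; simp

/-- The height of a bus cell, as a real number. -/
noncomputable def Hb (i : Fin I.n) (x : ℕ) : ℝ := 20 + (I.contacts Lam i x : ℝ)

theorem KK_bb (i j : Fin I.n) (x y : Fin X) :
    KK I ell D Lam W (.inl (i, x) : I.Cell X) (.inl (j, y)) =
      Hb I Lam i x * Hb I Lam j y *
        fk (ell * ((i : ℕ) - (j : ℕ) : ℝ)) ((x : ℕ) - (y : ℕ)) := by
  simp only [KK, Hb, XorInst.hgt, XorInst.cx, XorInst.cy]
  push_cast
  congr 2; ring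

theorem KK_bm (i : Fin I.n) (x : Fin X) (e : Fin I.m) :
    KK I ell D Lam W (.inl (i, x) : I.Cell X) (.inr e) =
      Hb I Lam i x * W *
        fk (D + ell * (i : ℕ)) ((x : ℕ) - ((((e : ℕ) + 1) * Lam : ℕ) + 1 / 2)) := by
  simp only [KK, Hb, XorInst.hgt, XorInst.cx, XorInst.cy]
  push_cast
  congr 2; ring

theorem KK_mm (e e' : Fin I.m) :
    KK I ell D Lam W (.inr e : I.Cell X) (.inr e') =
      (W : ℝ) * W * fk 0 (((e : ℕ) - (e' : ℕ) : ℝ) * Lam) := by
  simp only [KK, XorInst.hgt, XorInst.cx, XorInst.cy]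
  congr 2 <;> ring

theorem contacts_le (hLam : 2 ≤ Lam) (i : Fin I.n) (x : ℕ) : I.contacts Lam i x ≤ 2 := by
  unfold XorInst.contacts
  have h1 : ∀ e : Fin I.m, ((if (I.l e).1 = i ∧ x = I.posL Lam e then 1 else 0) +
      (if (I.r e).1 = i ∧ x = I.posR Lam e then 1 else 0)) ≤
      if (e : ℕ) = x / Lam - 1 then 2 else 0 := by
    intro e
    have key : ∀ u : ℕ, u ≤ 1 → x = (e + 1) * Lam + u → (e : ℕ) = x / Lam - 1 := by
      intro u hu hx
      have h2 : x / Lam = e + 1 := by
        rw [hx, mul_comm, Nat.mul_add_div (by omega), Nat.div_eq_of_lt (by omega)]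
      omega
    have hL : x = I.posL Lam e → (e : ℕ) = x / Lam - 1 := fun h =>
      key (if (I.l e).2 then 0 else 1) (by split_ifs <;> omega) h
    have hR : x = I.posR Lam e → (e : ℕ) = x / Lam - 1 := fun h =>
      key (if (I.r e).2 then 1 else 0) (by split_ifs <;> omega) h
    by_cases h : (e : ℕ) = x / Lam - 1
    · rw [if_pos h]; split_ifs <;> omega
    · rw [if_neg h, if_neg (fun h' => h (hL h'.2)), if_neg (fun h' => h (hR h'.2))]
  refine (Finset.sum_le_sum fun e _ => h1 e).trans ?_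
  rw [← Finset.sum_filter, Finset.sum_const, smul_eq_mul]
  have : (Finset.univ.filter fun e : Fin I.m => (e : ℕ) = x / Lam - 1).card ≤ 1 := by
    rw [Finset.card_le_one]
    intro a ha b hb
    simp only [Finset.mem_filter, Finset.mem_univ, true_and] at ha hb
    exact Fin.ext (by omega)
  omega

theorem Hb_ge (i : Fin I.n) (x : ℕ) : 20 ≤ Hb I Lam i x := by
  unfold Hb; linarith [Nat.cast_nonneg (α := ℝ) (I.contacts Lam i x)]

theorem Hb_le (hLam : 2 ≤ Lam) (i : Fin I.n) (x : ℕ) : Hb I Lam i x ≤ 22 := by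
  unfold Hb
  have : (I.contacts Lam i x : ℝ) ≤ 2 := by exact_mod_cast contacts_le I Lam hLam i x
  linarith

theorem posL_lt (e : Fin I.m) (hLam : 2 ≤ Lam) : I.posL Lam e < (I.m + 2) * Lam := by
  have h : (e : ℕ) + 1 ≤ I.m := e.2
  have h2 : ((e : ℕ) + 1) * Lam ≤ I.m * Lam := Nat.mul_le_mul_right _ h
  have h3 : (I.m + 2) * Lam = I.m * Lam + 2 * Lam := by ring
  unfold XorInst.posL; split_ifs <;> omega

theorem posR_lt (e : Fin I.m) (hLam : 2 ≤ Lam) : I.posR Lam e < (I.m + 2) * Lam := by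
  have h : (e : ℕ) + 1 ≤ I.m := e.2
  have h2 : ((e : ℕ) + 1) * Lam ≤ I.m * Lam := Nat.mul_le_mul_right _ h
  have h3 : (I.m + 2) * Lam = I.m * Lam + 2 * Lam := by ring
  unfold XorInst.posR; split_ifs <;> omega

theorem sum_contacts {X : ℕ} (hLam : 2 ≤ Lam) (hX : X = (I.m + 2) * Lam) (i : Fin I.n)
    (φ : ℕ → ℝ) :
    ∑ x ∈ range X, (I.contacts Lam i x : ℝ) * φ x =
      ∑ e, ((if (I.l e).1 = i then φ (I.posL Lam e) else 0) +
        (if (I.r e).1 = i then φ (I.posR Lam e) else 0)) := by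
  have h1 : ∀ x, (I.contacts Lam i x : ℝ) * φ x =
      ∑ e, ((if (I.l e).1 = i then (if x = I.posL Lam e then φ x else 0) else 0) +
        (if (I.r e).1 = i then (if x = I.posR Lam e then φ x else 0) else 0)) := by
    intro x
    unfold XorInst.contacts
    push_cast
    rw [Finset.sum_mul]
    refine Finset.sum_congr rfl fun e _ => ?_
    by_cases hl : (I.l e).1 = i <;> by_cases hr : (I.r e).1 = i <;>
      by_cases hxl : x = I.posL Lam e <;> by_cases hxr : x = I.posR Lam e <;>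
      simp_all [add_mul]
  simp only [h1]
  rw [Finset.sum_comm]
  refine Finset.sum_congr rfl fun e _ => ?_
  rw [Finset.sum_add_distrib]
  have hl : I.posL Lam e < X := hX ▸ posL_lt I Lam e hLam
  have hr : I.posR Lam e < X := hX ▸ posR_lt I Lam e hLam
  congr 1
  · by_cases h : (I.l e).1 = i
    · simp only [if_pos h]
      rw [Finset.sum_ite_eq', if_pos (Finset.mem_range.2 hl)]
    · simp [h]
  · by_cases h : (I.r e).1 = i
    · simp only [if_pos h]
      rw [Finset.sum_ite_eq', if_pos (Finset.mem_range.2 hr)]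
    · simp [h]

end

end Vale.Agent.P370.H728
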