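import Vale.Agent.P370.H728.IsingB

/-!
Block P6 of P370, part C: the Ising energy of ordered configurations.
-/

namespace Vale.Agent.P370.H728

open Finset XorInst

section

variable (I : XorInst) (ell D Lam W : ℕ) (X : ℕ)

/-- Bus–bus interaction. -/
noncomputable def BB (i j : Fin I.n) : ℝ :=
  ∑ x ∈ range X, ∑ y ∈ range X, Hb I Lam i x * Hb I Lam j y *
    fk (ell * ((i : ℕ) - (j : ℕ) : ℝ)) ((x : ℕ) - (y : ℕ)) * ((-1) ^ x * (-1) ^ y)

/-- Bus–mediator interaction. -/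
noncomputable def BM (i : Fin I.n) (e : Fin I.m) : ℝ :=
  ∑ x ∈ range X, Hb I Lam i x * W *
    fk (D + ell * (i : ℕ)) ((x : ℕ) - ((((e : ℕ) + 1) * Lam : ℕ) + 1 / 2)) * (-1) ^ x

theorem ising_ord (s : Fin I.n → Bool) (v : Fin I.m → Bool) :
    I.ising ell D Lam W (X := X) (I.ord s v) =
      1 / 2 * ∑ i, ∑ j, sg (s i) * sg (s j) * BB I ell Lam X i j +
      ∑ e, sg (v e) * ∑ i, sg (s i) * BM I ell D Lam W X i e +
      1 / 2 * ∑ e : Fin I.m, ∑ e' : Fin I.m, sg (v e) * sg (v e') *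
        ((W : ℝ) * W * fk 0 (((e : ℕ) - (e' : ℕ) : ℝ) * Lam)) := by
  rw [ising_eq]
  simp only [Fintype.sum_sum_type, Finset.sum_add_distrib, Fintype.sum_prod_type]
  have h1 : ∀ i j : Fin I.n, ∑ x : Fin X, ∑ y : Fin X,
      KK I ell D Lam W (.inl (i, x) : I.Cell X) (.inl (j, y)) *
        (sg (I.ord s v (.inl (i, x) : I.Cell X)) * sg (I.ord s v (.inl (j, y) : I.Cell X))) =
      sg (s i) * sg (s j) * BB I ell Lam X i j := by
    intro i j
    unfold BB
    rw [← Fin.sum_univ_eq_sum_range (fun x => ∑ y ∈ range X, Hb I Lam i x * Hb I Lam j y *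
      fk (ell * ((i : ℕ) - (j : ℕ) : ℝ)) ((x : ℕ) - (y : ℕ)) * ((-1) ^ x * (-1) ^ y)) X,
      Finset.mul_sum]
    refine Finset.sum_congr rfl fun x _ => ?_
    rw [← Fin.sum_univ_eq_sum_range (fun y => Hb I Lam i x * Hb I Lam j y *
      fk (ell * ((i : ℕ) - (j : ℕ) : ℝ)) ((x : ℕ) - (y : ℕ)) * ((-1) ^ (x : ℕ) * (-1) ^ y)) X,
      Finset.mul_sum]
    refine Finset.sum_congr rfl fun y _ => ?_
    rw [KK_bb]
    simp only [XorInst.ord, sg_alt]
    ring
  have h2 : ∀ (i : Fin I.n) (e : Fin I.m), ∑ x : Fin X,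
      KK I ell D Lam W (.inl (i, x) : I.Cell X) (.inr e) *
        (sg (I.ord s v (.inl (i, x) : I.Cell X)) * sg (I.ord s v (.inr e : I.Cell X))) =
      sg (v e) * (sg (s i) * BM I ell D Lam W X i e) := by
    intro i e
    unfold BM
    rw [← Fin.sum_univ_eq_sum_range (fun x => Hb I Lam i x * W *
      fk (D + ell * (i : ℕ)) ((x : ℕ) - ((((e : ℕ) + 1) * Lam : ℕ) + 1 / 2)) * (-1) ^ x) X,
      Finset.mul_sum, Finset.mul_sum]
    refine Finset.sum_congr rfl fun x _ => ?_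
    rw [KK_bm]
    simp only [XorInst.ord, sg_alt]
    ring
  have h3 : ∀ (i : Fin I.n) (e : Fin I.m), ∑ x : Fin X,
      KK I ell D Lam W (.inr e : I.Cell X) (.inl (i, x)) *
        (sg (I.ord s v (.inr e : I.Cell X)) * sg (I.ord s v (.inl (i, x) : I.Cell X))) =
      sg (v e) * (sg (s i) * BM I ell D Lam W X i e) := by
    intro i e
    rw [← h2]
    refine Finset.sum_congr rfl fun x _ => ?_
    rw [KK_symm, mul_comm (sg (I.ord s v (.inr e : I.Cell X)))]
  have e1 : ∑ i : Fin I.n, ∑ x : Fin X, ∑ j : Fin I.n, ∑ y : Fin X,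
      KK I ell D Lam W (.inl (i, x) : I.Cell X) (.inl (j, y)) *
        (sg (I.ord s v (.inl (i, x) : I.Cell X)) * sg (I.ord s v (.inl (j, y) : I.Cell X))) =
      ∑ i, ∑ j, sg (s i) * sg (s j) * BB I ell Lam X i j := by
    refine Finset.sum_congr rfl fun i _ => ?_
    rw [Finset.sum_comm]
    exact Finset.sum_congr rfl fun j _ => h1 i j
  have e2 : ∑ i : Fin I.n, ∑ x : Fin X, ∑ e : Fin I.m,
      KK I ell D Lam W (.inl (i, x) : I.Cell X) (.inr e) *
        (sg (I.ord s v (.inl (i, x) : I.Cell X)) * sg (I.ord s v (.inr e : I.Cell X))) =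
      ∑ e, sg (v e) * ∑ i, sg (s i) * BM I ell D Lam W X i e := by
    calc _ = ∑ i : Fin I.n, ∑ e : Fin I.m, sg (v e) * (sg (s i) * BM I ell D Lam W X i e) := by
          refine Finset.sum_congr rfl fun i _ => ?_
          rw [Finset.sum_comm]
          exact Finset.sum_congr rfl fun e _ => h2 i e
      _ = ∑ e : Fin I.m, ∑ i : Fin I.n, sg (v e) * (sg (s i) * BM I ell D Lam W X i e) :=
          Finset.sum_comm
      _ = _ := by simp only [Finset.mul_sum]
  have e3 : ∑ e : Fin I.m, ∑ i : Fin I.n, ∑ x : Fin X,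
      KK I ell D Lam W (.inr e : I.Cell X) (.inl (i, x)) *
        (sg (I.ord s v (.inr e : I.Cell X)) * sg (I.ord s v (.inl (i, x) : I.Cell X))) =
      ∑ e, sg (v e) * ∑ i, sg (s i) * BM I ell D Lam W X i e := by
    simp only [Finset.mul_sum]
    exact Finset.sum_congr rfl fun e _ => Finset.sum_congr rfl fun i _ => h3 i e
  have e4 : ∑ e : Fin I.m, ∑ e' : Fin I.m,
      KK I ell D Lam W (.inr e : I.Cell X) (.inr e') *
        (sg (I.ord s v (.inr e : I.Cell X)) * sg (I.ord s v (.inr e' : I.Cell X))) =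
      ∑ e : Fin I.m, ∑ e' : Fin I.m, sg (v e) * sg (v e') *
        ((W : ℝ) * W * fk 0 (((e : ℕ) - (e' : ℕ) : ℝ) * Lam)) := by
    refine Finset.sum_congr rfl fun e _ => Finset.sum_congr rfl fun e' _ => ?_
    rw [KK_mm]
    simp only [XorInst.ord]
    ring
  rw [e1, e2, e3, e4]
  ring

end

section

variable (I : XorInst) (ell D Lam W : ℕ) (X : ℕ)

theorem BB_bound (hell : 0 < ell) (hLam : 2 ≤ Lam) (hX : X = (I.m + 2) * Lam)
    (i j : Fin I.n) (hij : i ≠ j) :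
    |BB I ell Lam X i j| ≤ X * (22 * (40 + 2 * I.m) / (ell : ℝ) ^ 3) := by
  have hell' : (0 : ℝ) < ell := by exact_mod_cast hell
  set a : ℝ := |ell * ((i : ℕ) - (j : ℕ) : ℝ)| with ha
  have hij' : (1 : ℝ) ≤ |((i : ℕ) - (j : ℕ) : ℝ)| := by
    have h1 : ((i : ℕ) : ℤ) - (j : ℕ) ≠ 0 := by
      intro h; apply hij; apply Fin.ext; omega
    have h2 : (1 : ℤ) ≤ |((i : ℕ) : ℤ) - (j : ℕ)| := Int.one_le_abs h1
    have h3 : ((1 : ℤ) : ℝ) ≤ ((|((i : ℕ) : ℤ) - (j : ℕ)| : ℤ) : ℝ) := by exact_mod_cast h2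
    push_cast at h3; exact h3
  have hae : (ell : ℝ) ≤ a := by
    rw [ha, abs_mul, abs_of_pos hell']; nlinarith
  have ha0 : 0 < a := by linarith
  have hfk : ∀ z : ℝ, fk (ell * ((i : ℕ) - (j : ℕ) : ℝ)) z = fk a z := by
    intro z; unfold fk; rw [ha, sq_abs]
  have row : ∀ x ∈ range X, |∑ y ∈ range X, Hb I Lam i x * Hb I Lam j y *
      fk (ell * ((i : ℕ) - (j : ℕ) : ℝ)) ((x : ℕ) - (y : ℕ)) * ((-1) ^ x * (-1) ^ y)| ≤
      22 * (40 + 2 * I.m) / (ell : ℝ) ^ 3 := by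
    intro x hx
    have hx' : x < X := Finset.mem_range.1 hx
    have e1 : ∑ y ∈ range X, Hb I Lam i x * Hb I Lam j y *
        fk (ell * ((i : ℕ) - (j : ℕ) : ℝ)) ((x : ℕ) - (y : ℕ)) * ((-1) ^ x * (-1) ^ y) =
        Hb I Lam i x * (-1) ^ x * (20 * ∑ y ∈ range X, (-1 : ℝ) ^ y * fk a ((x : ℝ) - y) +
          ∑ y ∈ range X, (I.contacts Lam j y : ℝ) * ((-1 : ℝ) ^ y * fk a ((x : ℝ) - y))) := by
      rw [Finset.mul_sum, ← Finset.sum_add_distrib, Finset.mul_sum]
      refine Finset.sum_congr rfl fun y _ => ?_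
      rw [hfk]; unfold Hb; ring
    have b1 := alt_int ha0 X x hx'
    have b2 : |∑ y ∈ range X, (I.contacts Lam j y : ℝ) * ((-1 : ℝ) ^ y * fk a ((x : ℝ) - y))| ≤
        2 * I.m / a ^ 3 := by
      rw [sum_contacts I Lam hLam hX]
      have b3 : ∀ y : ℕ, |(-1 : ℝ) ^ y * fk a ((x : ℝ) - y)| ≤ 1 / a ^ 3 := by
        intro y
        rw [abs_mul, abs_pow, abs_neg, abs_one, one_pow, one_mul, abs_of_nonneg (fk_nonneg _ _)]
        exact fk_le_a ha0 _
      have h0 : (0 : ℝ) ≤ 1 / a ^ 3 := by positivity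
      refine (Finset.abs_sum_le_sum_abs _ _).trans ?_
      have b4 : ∀ e ∈ (Finset.univ : Finset (Fin I.m)),
          |((if (I.l e).1 = j then (-1 : ℝ) ^ (I.posL Lam e) *
              fk a ((x : ℝ) - (I.posL Lam e : ℕ)) else 0) +
            (if (I.r e).1 = j then (-1 : ℝ) ^ (I.posR Lam e) *
              fk a ((x : ℝ) - (I.posR Lam e : ℕ)) else 0))| ≤ 2 / a ^ 3 := by
        intro e _
        refine (abs_add_le _ _).trans ?_
        have c1 : |(if (I.l e).1 = j then (-1 : ℝ) ^ (I.posL Lam e) *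
              fk a ((x : ℝ) - (I.posL Lam e : ℕ)) else 0)| ≤ 1 / a ^ 3 := by
          split_ifs
          · exact b3 _
          · rw [abs_zero]; exact h0
        have c2 : |(if (I.r e).1 = j then (-1 : ℝ) ^ (I.posR Lam e) *
              fk a ((x : ℝ) - (I.posR Lam e : ℕ)) else 0)| ≤ 1 / a ^ 3 := by
          split_ifs
          · exact b3 _
          · rw [abs_zero]; exact h0
        have : 2 / a ^ 3 = 1 / a ^ 3 + 1 / a ^ 3 := by ring
        rw [this]; exact add_le_add c1 c2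
      refine (Finset.sum_le_sum b4).trans ?_
      rw [Finset.sum_const, Finset.card_univ, Fintype.card_fin, nsmul_eq_mul]
      exact le_of_eq (by ring)
    rw [e1, abs_mul, abs_mul, abs_pow, abs_neg, abs_one, one_pow, mul_one,
      abs_of_nonneg (by linarith [Hb_ge I Lam i x])]
    have b5 : |20 * ∑ y ∈ range X, (-1 : ℝ) ^ y * fk a ((x : ℝ) - y) +
          ∑ y ∈ range X, (I.contacts Lam j y : ℝ) * ((-1 : ℝ) ^ y * fk a ((x : ℝ) - y))| ≤
        (40 + 2 * I.m) / (ell : ℝ) ^ 3 := by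
      refine (abs_add_le _ _).trans ?_
      rw [abs_mul, abs_of_pos (by norm_num : (0 : ℝ) < 20)]
      have c1 : (40 + 2 * I.m) / a ^ 3 ≤ (40 + 2 * I.m) / (ell : ℝ) ^ 3 := by
        apply div_le_div_of_nonneg_left (by positivity) (by positivity)
        exact pow_le_pow_left₀ hell'.le hae 3
      have c2 : (40 + 2 * I.m) / a ^ 3 = 20 * (2 / a ^ 3) + 2 * I.m / a ^ 3 := by ring
      linarith
    calc _ ≤ 22 * ((40 + 2 * I.m) / (ell : ℝ) ^ 3) :=
          mul_le_mul (Hb_le I Lam hLam i x) b5 (abs_nonneg _) (by norm_num)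
      _ = _ := by ring
  unfold BB
  refine (Finset.abs_sum_le_sum_abs _ _).trans ((Finset.sum_le_sum row).trans ?_)
  rw [Finset.sum_const, Finset.card_range, nsmul_eq_mul]

end

end Vale.Agent.P370.H728
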