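import Vale.Agent.P370.H728.IsingC

/-!
Block P6 of P370, part D: interaction of the buses with a mediator.
-/

namespace Vale.Agent.P370.H728

open Finset XorInst

section

variable (I : XorInst) (ell D Lam W : ℕ) (X : ℕ)

/-- The kernel at distance `1/2` from the mediator is `1/D³` up to a small relative error. -/
theorem fk_half_close (hD : 0 < D) (i : Fin I.n) :
    |fk (D + ell * (i : ℕ)) (1 / 2) - 1 / (D : ℝ) ^ 3| ≤ 3 * (ell * I.n + 1) / (D : ℝ) ^ 4 := by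
  have hD' : (0 : ℝ) < D := by exact_mod_cast hD
  have hi : ((i : ℕ) : ℝ) ≤ I.n := by exact_mod_cast i.2.le
  have hi0 : (0 : ℝ) ≤ ((i : ℕ) : ℝ) := Nat.cast_nonneg _
  have hl0 : (0 : ℝ) ≤ ell := Nat.cast_nonneg _
  have hn0 : (0 : ℝ) ≤ I.n := Nat.cast_nonneg _
  have hli : (ell : ℝ) * (i : ℕ) ≤ ell * I.n := mul_le_mul_of_nonneg_left hi hl0
  have hli0 : 0 ≤ (ell : ℝ) * (i : ℕ) := mul_nonneg hl0 hi0
  set a : ℝ := D + ell * (i : ℕ) with ha
  set h : ℝ := ell * I.n + 1 with hh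
  have hh0 : 0 < h := by rw [hh]; positivity
  have ha1 : (D : ℝ) ≤ a := by linarith
  have ha0 : 0 < a := by linarith
  have u1 : fk a (1 / 2) ≤ 1 / (D : ℝ) ^ 3 :=
    fk_le_of_le hD' (by nlinarith)
  have u2 : 1 / (D + h) ^ 3 ≤ fk a (1 / 2) := by
    unfold fk
    have h1 : Real.sqrt ((1 / 2 : ℝ) ^ 2 + a ^ 2) ≤ D + h := by
      apply Real.sqrt_le_iff.2
      refine ⟨by positivity, ?_⟩
      have h2 : a + 1 ≤ D + h := by rw [ha, hh]; linarith
      nlinarith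
    have h2 : 0 < Real.sqrt ((1 / 2 : ℝ) ^ 2 + a ^ 2) := Real.sqrt_pos.2 (by positivity)
    exact one_div_le_one_div_of_le (by positivity) (pow_le_pow_left₀ h2.le h1 3)
  have u3 : 1 / (D : ℝ) ^ 3 - 1 / (D + h) ^ 3 ≤ 3 * h / (D : ℝ) ^ 4 := by
    rw [div_sub_div _ _ (by positivity) (by positivity),
      div_le_div_iff₀ (by positivity) (by positivity)]
    have e : 3 * h * ((D : ℝ) ^ 3 * (D + h) ^ 3) - (1 * (D + h) ^ 3 - (D : ℝ) ^ 3 * 1) * D ^ 4 =
        D ^ 3 * (6 * D ^ 2 * h ^ 2 + 8 * D * h ^ 3 + 3 * h ^ 4) := by ring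
    have : 0 ≤ (D : ℝ) ^ 3 * (6 * D ^ 2 * h ^ 2 + 8 * D * h ^ 3 + 3 * h ^ 4) := by positivity
    linarith
  rw [abs_le]
  constructor
  · have := u2; linarith
  · have : 0 ≤ 3 * h / (D : ℝ) ^ 4 := by positivity
    linarith

theorem BM_bound (hD : 0 < D) (hLam : 2 ≤ Lam) (hev : Even Lam) (hX : X = (I.m + 2) * Lam)
    (s : Fin I.n → Bool) (e : Fin I.m) :
    |∑ i, sg (s i) * BM I ell D Lam W X i e -
      (W : ℝ) / (D : ℝ) ^ 3 * (lv (I.l e) s - lv (I.r e) s)| ≤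
      W * ((20 * I.n + 16 * I.m) / (Lam : ℝ) ^ 3 + 6 * (ell * I.n + 1) / (D : ℝ) ^ 4) := by
  have hD' : (0 : ℝ) < D := by exact_mod_cast hD
  have hLam' : (2 : ℝ) ≤ Lam := by exact_mod_cast hLam
  have hL0 : (0 : ℝ) < Lam := by linarith
  have hW0 : (0 : ℝ) ≤ W := Nat.cast_nonneg _
  set c : ℝ := ((((e : ℕ) + 1) * Lam : ℕ) : ℝ) + 1 / 2 with hc
  set φ : Fin I.n → ℕ → ℝ := fun i x => (-1 : ℝ) ^ x * fk (D + ell * (i : ℕ)) ((x : ℝ) - c)
    with hφ
  have ha : ∀ i : Fin I.n, (0 : ℝ) < D + ell * (i : ℕ) := fun i => by positivity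
  -- decomposition
  have dec : ∀ i, BM I ell D Lam W X i e = W * (20 * ∑ x ∈ range X, φ i x +
      ∑ x ∈ range X, (I.contacts Lam i x : ℝ) * φ i x) := by
    intro i
    unfold BM
    rw [Finset.mul_sum, ← Finset.sum_add_distrib, Finset.mul_sum]
    refine Finset.sum_congr rfl fun x _ => ?_
    simp only [hφ, Hb]; ring
  have base : ∀ i, |∑ x ∈ range X, φ i x| ≤ 1 / (Lam : ℝ) ^ 3 := by
    intro i
    have he : (e : ℕ) + 1 ≤ I.m := e.2
    have h2 : ((e : ℕ) + 1) * Lam ≤ I.m * Lam := Nat.mul_le_mul_right _ he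
    have h3 : (I.m + 2) * Lam = I.m * Lam + 2 * Lam := by ring
    have h4 : 1 * Lam ≤ ((e : ℕ) + 1) * Lam := Nat.mul_le_mul_right _ (by omega)
    exact alt_half (ha i) X (((e : ℕ) + 1) * Lam) Lam (hev.mul_left _) (by omega) (by omega)
      (by rw [hX]; omega)
  -- contacts
  have con : ∑ i, sg (s i) * ∑ x ∈ range X, (I.contacts Lam i x : ℝ) * φ i x =
      ∑ e' : Fin I.m, (sg (s (I.l e').1) * φ (I.l e').1 (I.posL Lam e') +
        sg (s (I.r e').1) * φ (I.r e').1 (I.posR Lam e')) := by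
    have h1 : ∀ i, sg (s i) * ∑ x ∈ range X, (I.contacts Lam i x : ℝ) * φ i x =
        ∑ e' : Fin I.m, ((if (I.l e').1 = i then sg (s i) * φ i (I.posL Lam e') else 0) +
          (if (I.r e').1 = i then sg (s i) * φ i (I.posR Lam e') else 0)) := by
      intro i
      rw [sum_contacts I Lam hLam hX, Finset.mul_sum]
      refine Finset.sum_congr rfl fun e' _ => ?_
      rw [mul_add, mul_ite, mul_ite, mul_zero]
    rw [Finset.sum_congr rfl fun i _ => h1 i, Finset.sum_comm]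
    refine Finset.sum_congr rfl fun e' _ => ?_
    rw [Finset.sum_add_distrib, Finset.sum_ite_eq, Finset.sum_ite_eq, if_pos (Finset.mem_univ _),
      if_pos (Finset.mem_univ _)]
  -- one pair
  have far : ∀ (i : Fin I.n) (e' : Fin I.m) (u : ℕ), u ≤ 1 → e' ≠ e →
      |φ i (((e' : ℕ) + 1) * Lam + u)| ≤ 8 / (Lam : ℝ) ^ 3 := by
    intro i e' u hu hee
    simp only [hφ]
    rw [abs_mul, abs_pow, abs_neg, abs_one, one_pow, one_mul, abs_of_nonneg (fk_nonneg _ _)]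
    have h1 : (1 : ℝ) ≤ |((e' : ℕ) : ℝ) - (e : ℕ)| := by
      have h1 : ((e' : ℕ) : ℤ) - (e : ℕ) ≠ 0 := by
        intro h; apply hee; apply Fin.ext; omega
      have h2 : (1 : ℤ) ≤ |((e' : ℕ) : ℤ) - (e : ℕ)| := Int.one_le_abs h1
      have h3 : ((1 : ℤ) : ℝ) ≤ ((|((e' : ℕ) : ℤ) - (e : ℕ)| : ℤ) : ℝ) := by exact_mod_cast h2
      push_cast at h3; exact h3
    have hu' : (u : ℝ) ≤ 1 := by exact_mod_cast hu
    have hu0 : (0 : ℝ) ≤ u := Nat.cast_nonneg _
    set z : ℝ := ((((e' : ℕ) + 1) * Lam + u : ℕ) : ℝ) - c with hz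
    have hz' : z = (((e' : ℕ) : ℝ) - (e : ℕ)) * Lam + (u - 1 / 2) := by
      rw [hz, hc]; push_cast; ring
    have hz2 : (Lam : ℝ) / 2 ≤ |z| := by
      have h2 : |(((e' : ℕ) : ℝ) - (e : ℕ)) * Lam| ≤ |z| + |(u : ℝ) - 1 / 2| := by
        have : (((e' : ℕ) : ℝ) - (e : ℕ)) * Lam = z - (u - 1 / 2) := by rw [hz']; ring
        rw [this]; exact abs_sub _ _
      rw [abs_mul, abs_of_pos hL0] at h2
      have h3 : |(u : ℝ) - 1 / 2| ≤ 1 / 2 := by rw [abs_le]; constructor <;> linarith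
      nlinarith
    rw [← fk_abs]
    refine (fk_le_of_le (r := Lam / 2) (by positivity) ?_).trans (le_of_eq ?_)
    · have := pow_le_pow_left₀ (by positivity : (0 : ℝ) ≤ (Lam : ℝ) / 2) hz2 2
      nlinarith [sq_nonneg ((D : ℝ) + ell * (i : ℕ))]
    · field_simp; norm_num
  have near : ∀ (i : Fin I.n) (b : Bool),
      |φ i (((e : ℕ) + 1) * Lam + if b then 0 else 1) - sg b / (D : ℝ) ^ 3| ≤
        3 * (ell * I.n + 1) / (D : ℝ) ^ 4 := by
    intro i b
    have h1 : φ i (((e : ℕ) + 1) * Lam + if b then 0 else 1) =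
        sg b * fk (D + ell * (i : ℕ)) (1 / 2) := by
      simp only [hφ]
      have hE : Even (((e : ℕ) + 1) * Lam) := hev.mul_left _
      cases b
      · simp only [Bool.false_eq_true, if_false]
        rw [pow_add, hE.neg_one_pow, hc]; push_cast
        rw [show (((e : ℕ) : ℝ) + 1) * Lam + 1 - ((((e : ℕ) : ℝ) + 1) * Lam + 1 / 2) = 1 / 2 by ring]
        simp [sg]
      · simp only [if_true]
        rw [pow_add, hE.neg_one_pow, hc]; push_cast
        rw [show (((e : ℕ) : ℝ) + 1) * Lam + 0 - ((((e : ℕ) : ℝ) + 1) * Lam + 1 / 2) =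
          -(1 / 2) by ring, fk_neg]
        simp [sg]
    have h2 := fk_half_close I ell D hD i
    rw [h1, show sg b * fk (D + ell * (i : ℕ)) (1 / 2) - sg b / (D : ℝ) ^ 3 =
      sg b * (fk (D + ell * (i : ℕ)) (1 / 2) - 1 / (D : ℝ) ^ 3) by ring, abs_mul, abs_sg, one_mul]
    exact h2
  have pair : ∀ e' : Fin I.m, |(sg (s (I.l e').1) * φ (I.l e').1 (I.posL Lam e') +
        sg (s (I.r e').1) * φ (I.r e').1 (I.posR Lam e')) -
        (if e' = e then (lv (I.l e) s - lv (I.r e) s) / (D : ℝ) ^ 3 else 0)| ≤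
      16 / (Lam : ℝ) ^ 3 + (if e' = e then 6 * (ell * I.n + 1) / (D : ℝ) ^ 4 else 0) := by
    intro e'
    by_cases h : e' = e
    · subst h
      rw [if_pos rfl, if_pos rfl]
      have hl := near (I.l e').1 (I.l e').2
      have hr := near (I.r e').1 (!(I.r e').2)
      have hr2 : I.posR Lam e' = ((e' : ℕ) + 1) * Lam + if (!(I.r e').2) then 0 else 1 := by
        unfold XorInst.posR; cases (I.r e').2 <;> simp
      have hl2 : I.posL Lam e' = ((e' : ℕ) + 1) * Lam + if (I.l e').2 then 0 else 1 := rfl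
      rw [hl2, hr2]
      rw [sg_not] at hr
      have e1 : sg (s (I.l e').1) * φ (I.l e').1 (((e' : ℕ) + 1) * Lam +
            if (I.l e').2 then 0 else 1) +
          sg (s (I.r e').1) * φ (I.r e').1 (((e' : ℕ) + 1) * Lam +
            if (!(I.r e').2) then 0 else 1) -
          (lv (I.l e') s - lv (I.r e') s) / (D : ℝ) ^ 3 =
          sg (s (I.l e').1) * (φ (I.l e').1 (((e' : ℕ) + 1) * Lam +
            if (I.l e').2 then 0 else 1) - sg (I.l e').2 / (D : ℝ) ^ 3) +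
          sg (s (I.r e').1) * (φ (I.r e').1 (((e' : ℕ) + 1) * Lam +
            if (!(I.r e').2) then 0 else 1) - -sg (I.r e').2 / (D : ℝ) ^ 3) := by
        unfold lv; ring
      rw [e1]
      refine (abs_add_le _ _).trans ?_
      rw [abs_mul, abs_mul, abs_sg, abs_sg, one_mul, one_mul]
      have h16 : (0 : ℝ) ≤ 16 / (Lam : ℝ) ^ 3 := by positivity
      have : 6 * (ell * I.n + 1) / (D : ℝ) ^ 4 = 3 * (ell * I.n + 1) / (D : ℝ) ^ 4 +
        3 * (ell * I.n + 1) / (D : ℝ) ^ 4 := by ring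
      linarith
    · rw [if_neg h, if_neg h, sub_zero, add_zero]
      refine (abs_add_le _ _).trans ?_
      rw [abs_mul (sg (s (I.l e').1)), abs_mul (sg (s (I.r e').1)), abs_sg, abs_sg, one_mul,
        one_mul]
      have f1 := far (I.l e').1 e' (if (I.l e').2 then 0 else 1) (by split_ifs <;> omega) h
      have f2 := far (I.r e').1 e' (if (I.r e').2 then 1 else 0) (by split_ifs <;> omega) h
      have : 16 / (Lam : ℝ) ^ 3 = 8 / (Lam : ℝ) ^ 3 + 8 / (Lam : ℝ) ^ 3 := by ring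
      rw [this]; exact add_le_add f1 f2
  -- assembling
  have tot : ∑ i, sg (s i) * BM I ell D Lam W X i e -
      (W : ℝ) / (D : ℝ) ^ 3 * (lv (I.l e) s - lv (I.r e) s) =
      W * (20 * ∑ i, sg (s i) * ∑ x ∈ range X, φ i x + ∑ e' : Fin I.m,
        ((sg (s (I.l e').1) * φ (I.l e').1 (I.posL Lam e') +
        sg (s (I.r e').1) * φ (I.r e').1 (I.posR Lam e')) -
        (if e' = e then (lv (I.l e) s - lv (I.r e) s) / (D : ℝ) ^ 3 else 0))) := by
    rw [Finset.sum_sub_distrib, Finset.sum_ite_eq', if_pos (Finset.mem_univ _), ← con]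
    simp only [dec]
    have e0 : ∑ i, sg (s i) * (W * (20 * ∑ x ∈ range X, φ i x +
        ∑ x ∈ range X, (I.contacts Lam i x : ℝ) * φ i x)) =
        W * (20 * ∑ i, sg (s i) * ∑ x ∈ range X, φ i x +
          ∑ i, sg (s i) * ∑ x ∈ range X, (I.contacts Lam i x : ℝ) * φ i x) := by
      rw [Finset.mul_sum, ← Finset.sum_add_distrib, Finset.mul_sum]
      exact Finset.sum_congr rfl fun i _ => by ring
    rw [e0]; ring
  rw [tot, abs_mul, abs_of_nonneg hW0]
  apply mul_le_mul_of_nonneg_left _ hW0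
  refine (abs_add_le _ _).trans ?_
  have p1 : |20 * ∑ i, sg (s i) * ∑ x ∈ range X, φ i x| ≤ 20 * I.n / (Lam : ℝ) ^ 3 := by
    rw [abs_mul, abs_of_pos (by norm_num : (0 : ℝ) < 20)]
    have : |∑ i, sg (s i) * ∑ x ∈ range X, φ i x| ≤ I.n * (1 / (Lam : ℝ) ^ 3) := by
      refine (Finset.abs_sum_le_sum_abs _ _).trans ?_
      refine (Finset.sum_le_sum (fun i _ => show _ ≤ 1 / (Lam : ℝ) ^ 3 from ?_)).trans ?_
      · rw [abs_mul, abs_sg, one_mul]; exact base i
      · rw [Finset.sum_const, Finset.card_univ, Fintype.card_fin, nsmul_eq_mul]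
    calc _ ≤ 20 * (I.n * (1 / (Lam : ℝ) ^ 3)) := by linarith
      _ = _ := by ring
  have p2 := (Finset.abs_sum_le_sum_abs _ _).trans
    (Finset.sum_le_sum fun e' (_ : e' ∈ (Finset.univ : Finset (Fin I.m))) => pair e')
  rw [Finset.sum_add_distrib, Finset.sum_ite_eq', if_pos (Finset.mem_univ _), Finset.sum_const,
    Finset.card_univ, Fintype.card_fin, nsmul_eq_mul] at p2
  have e2 : (20 * I.n + 16 * I.m) / (Lam : ℝ) ^ 3 =
      20 * I.n / (Lam : ℝ) ^ 3 + I.m * (16 / (Lam : ℝ) ^ 3) := by ring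
  rw [e2]; linarith

end

end Vale.Agent.P370.H728
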