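import Vale.Agent.P370.H728.IsingD

/-!
Block P6 of P370, part E: the first half of `IsingStmt`.
-/

namespace Vale.Agent.P370.H728

open Finset XorInst

theorem numeric (n m Q : ℝ) (hn : 0 ≤ n) (hm : 0 ≤ m) (hQ : 1000 * (n + m + 1) ≤ Q) :
    1 / 2 * (n * n * ((m + 2) * (2 * Q ^ 57) * (22 * (40 + 2 * m) / (Q ^ 32) ^ 3))) +
      m * (Q ^ 67 * ((20 * n + 16 * m) / (2 * Q ^ 57) ^ 3 + 6 * (Q ^ 32 * n + 1) / (Q ^ 34) ^ 4)) +
      1 / 2 * (m * m * (Q ^ 67 * Q ^ 67 / (2 * Q ^ 57) ^ 3)) ≤ Q ^ 67 / (Q ^ 34) ^ 3 / 4 := by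
  set M : ℝ := n + m + 1 with hM
  have hM1 : 1 ≤ M := by linarith
  have hQ1 : 1 ≤ Q := by linarith
  have hQ0 : 0 < Q := by linarith
  have hnM : n ≤ M := by linarith
  have hmM : m ≤ M := by linarith
  have hM0 : 0 ≤ M := by linarith
  have eJ : Q ^ 67 / (Q ^ 34) ^ 3 / 4 = 1 / (4 * Q ^ 35) := by field_simp
  have e1 : 1 / 2 * (n * n * ((m + 2) * (2 * Q ^ 57) * (22 * (40 + 2 * m) / (Q ^ 32) ^ 3))) =
      22 * (n * n) * (m + 2) * (40 + 2 * m) / Q ^ 39 := by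
    field_simp
  have e2 : m * (Q ^ 67 * ((20 * n + 16 * m) / (2 * Q ^ 57) ^ 3 +
      6 * (Q ^ 32 * n + 1) / (Q ^ 34) ^ 4)) =
      m * (20 * n + 16 * m) / (8 * Q ^ 104) + 6 * m * (Q ^ 32 * n + 1) / Q ^ 69 := by
    field_simp; ring
  have e3 : 1 / 2 * (m * m * (Q ^ 67 * Q ^ 67 / (2 * Q ^ 57) ^ 3)) = m * m / (16 * Q ^ 37) := by
    field_simp; ring
  rw [e1, e2, e3, eJ]
  have q2 : (1000 * M) ^ 2 ≤ Q ^ 2 := pow_le_pow_left₀ (by positivity) hQ 2
  have q4 : (1000 * M) ^ 4 ≤ Q ^ 4 := pow_le_pow_left₀ (by positivity) hQ 4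
  have b1 : 22 * (n * n) * (m + 2) * (40 + 2 * m) / Q ^ 39 ≤ 1 / (16 * Q ^ 35) := by
    rw [div_le_div_iff₀ (by positivity) (by positivity)]
    have h1 : n * n ≤ M * M := mul_le_mul hnM hnM hn hM0
    have h2 : (m + 2) * (40 + 2 * m) ≤ (2 * M) * (40 * M) :=
      mul_le_mul (by linarith) (by linarith) (by positivity) (by positivity)
    have h3 : (n * n) * ((m + 2) * (40 + 2 * m)) ≤ (M * M) * ((2 * M) * (40 * M)) :=
      mul_le_mul h1 h2 (by positivity) (by positivity)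
    have h4 : 352 * ((n * n) * ((m + 2) * (40 + 2 * m))) ≤ Q ^ 4 := by
      have : 0 ≤ M ^ 4 := by positivity
      nlinarith
    have h5 : 0 ≤ Q ^ 35 := by positivity
    calc 22 * (n * n) * (m + 2) * (40 + 2 * m) * (16 * Q ^ 35)
        = (352 * ((n * n) * ((m + 2) * (40 + 2 * m)))) * Q ^ 35 := by ring
      _ ≤ Q ^ 4 * Q ^ 35 := mul_le_mul_of_nonneg_right h4 h5
      _ = 1 * Q ^ 39 := by ring
  have b2 : m * (20 * n + 16 * m) / (8 * Q ^ 104) ≤ 1 / (16 * Q ^ 35) := by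
    rw [div_le_div_iff₀ (by positivity) (by positivity)]
    have h1 : m * (20 * n + 16 * m) ≤ M * (36 * M) :=
      mul_le_mul hmM (by linarith) (by positivity) hM0
    have h2 : 16 * (m * (20 * n + 16 * m)) ≤ 8 * Q ^ 2 := by nlinarith
    have h3 : Q ^ 2 ≤ Q ^ 69 := pow_le_pow_right₀ hQ1 (by norm_num)
    have h5 : 0 ≤ Q ^ 35 := by positivity
    calc m * (20 * n + 16 * m) * (16 * Q ^ 35) = (16 * (m * (20 * n + 16 * m))) * Q ^ 35 := by ring
      _ ≤ (8 * Q ^ 69) * Q ^ 35 := mul_le_mul_of_nonneg_right (by linarith) h5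
      _ = 1 * (8 * Q ^ 104) := by ring
  have b3 : 6 * m * (Q ^ 32 * n + 1) / Q ^ 69 ≤ 1 / (16 * Q ^ 35) := by
    rw [div_le_div_iff₀ (by positivity) (by positivity)]
    have h0 : 1 ≤ Q ^ 32 := one_le_pow₀ hQ1
    have h1 : Q ^ 32 * n + 1 ≤ Q ^ 32 * M := by nlinarith
    have h2 : m * (Q ^ 32 * n + 1) ≤ M * (Q ^ 32 * M) := mul_le_mul hmM h1 (by positivity) hM0
    have h3 : 96 * (m * (Q ^ 32 * n + 1)) ≤ Q ^ 34 := by
      have h4 : 96 * (M * M) ≤ Q ^ 2 := by nlinarith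
      have h5 : 0 ≤ Q ^ 32 := by positivity
      calc 96 * (m * (Q ^ 32 * n + 1)) ≤ 96 * (M * (Q ^ 32 * M)) := by linarith
        _ = Q ^ 32 * (96 * (M * M)) := by ring
        _ ≤ Q ^ 32 * Q ^ 2 := mul_le_mul_of_nonneg_left h4 h5
        _ = Q ^ 34 := by ring
    have h5 : 0 ≤ Q ^ 35 := by positivity
    calc 6 * m * (Q ^ 32 * n + 1) * (16 * Q ^ 35) = (96 * (m * (Q ^ 32 * n + 1))) * Q ^ 35 := by
          ring
      _ ≤ Q ^ 34 * Q ^ 35 := mul_le_mul_of_nonneg_right h3 h5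
      _ = 1 * Q ^ 69 := by ring
  have b4 : m * m / (16 * Q ^ 37) ≤ 1 / (16 * Q ^ 35) := by
    rw [div_le_div_iff₀ (by positivity) (by positivity)]
    have h1 : m * m ≤ M * M := mul_le_mul hmM hmM hm hM0
    have h2 : m * m ≤ Q ^ 2 := by nlinarith
    have h5 : 0 ≤ 16 * Q ^ 35 := by positivity
    calc m * m * (16 * Q ^ 35) ≤ Q ^ 2 * (16 * Q ^ 35) := mul_le_mul_of_nonneg_right h2 h5
      _ = 1 * (16 * Q ^ 37) := by ring
  have e5 : 1 / (4 * Q ^ 35) = 4 * (1 / (16 * Q ^ 35)) := by field_simp; norm_num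
  rw [e5]; linarith

theorem MM_bound (I : XorInst) (Lam W : ℕ) (hLam : 2 ≤ Lam) (v : Fin I.m → Bool) :
    |1 / 2 * ∑ e : Fin I.m, ∑ e' : Fin I.m, sg (v e) * sg (v e') *
        ((W : ℝ) * W * fk 0 (((e : ℕ) - (e' : ℕ) : ℝ) * Lam))| ≤
      1 / 2 * (I.m * I.m * ((W : ℝ) * W / (Lam : ℝ) ^ 3)) := by
  have hL0 : (0 : ℝ) < Lam := by
    have : (2 : ℝ) ≤ Lam := by exact_mod_cast hLam
    linarith
  have h1 : ∀ e e' : Fin I.m, |sg (v e) * sg (v e') *
        ((W : ℝ) * W * fk 0 (((e : ℕ) - (e' : ℕ) : ℝ) * Lam))| ≤ (W : ℝ) * W / (Lam : ℝ) ^ 3 := by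
    intro e e'
    rw [abs_mul, abs_mul, abs_sg, abs_sg, one_mul, one_mul, abs_mul,
      abs_of_nonneg (fk_nonneg _ _), abs_of_nonneg (by positivity : (0 : ℝ) ≤ (W : ℝ) * W),
      div_eq_mul_one_div]
    apply mul_le_mul_of_nonneg_left _ (by positivity)
    by_cases h : e = e'
    · subst h; unfold fk; simp
    · have h1 : (1 : ℝ) ≤ |((e : ℕ) : ℝ) - (e' : ℕ)| := by
        have h1 : ((e : ℕ) : ℤ) - (e' : ℕ) ≠ 0 := by
          intro h'; apply h; apply Fin.ext; omega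
        have h2 : (1 : ℤ) ≤ |((e : ℕ) : ℤ) - (e' : ℕ)| := Int.one_le_abs h1
        have h3 : ((1 : ℤ) : ℝ) ≤ ((|((e : ℕ) : ℤ) - (e' : ℕ)| : ℤ) : ℝ) := by exact_mod_cast h2
        push_cast at h3; exact h3
      apply fk_le_of_le hL0
      have h2 : (1 : ℝ) ≤ (((e : ℕ) : ℝ) - (e' : ℕ)) ^ 2 := by
        rw [← sq_abs]; nlinarith
      rw [mul_pow]; nlinarith [sq_nonneg (Lam : ℝ)]
  rw [abs_mul, abs_of_pos (by norm_num : (0 : ℝ) < 1 / 2)]
  apply mul_le_mul_of_nonneg_left _ (by norm_num)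
  refine (Finset.abs_sum_le_sum_abs _ _).trans ?_
  refine (Finset.sum_le_sum (fun e _ => (Finset.abs_sum_le_sum_abs _ _).trans
    (Finset.sum_le_sum fun e' _ => h1 e e'))).trans ?_
  rw [Finset.sum_const, Finset.sum_const, Finset.card_univ, Fintype.card_fin, nsmul_eq_mul,
    nsmul_eq_mul]
  exact le_of_eq (by ring)

theorem ord_bound (I : XorInst) (q : ℕ) (hq : 1000 * (I.n + I.m + 1) ≤ q)
    (ell D Lam W X : ℕ) (hell : ell = q ^ 32) (hD : D = q ^ 34) (hLam : Lam = 2 * q ^ 57)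
    (hW : W = q ^ 67) (hX : X = (I.m + 2) * Lam) (s : Fin I.n → Bool) (v : Fin I.m → Bool) :
    |I.ising ell D Lam W (X := X) (I.ord s v) -
      (1 / 2 * ∑ i, BB I ell Lam X i i +
        (W : ℝ) / (D : ℝ) ^ 3 * ∑ e, sg (v e) * (lv (I.l e) s - lv (I.r e) s))| ≤
      (W : ℝ) / (D : ℝ) ^ 3 / 4 := by
  have hq1 : 1 ≤ q := by omega
  have hell0 : 0 < ell := by rw [hell]; positivity
  have hD0 : 0 < D := by rw [hD]; positivity
  have hLam2 : 2 ≤ Lam := by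
    have : 1 ≤ q ^ 57 := Nat.one_le_pow _ _ hq1
    omega
  have hev : Even Lam := by rw [hLam]; exact even_two_mul _
  rw [ising_ord]
  -- bus–bus
  have e1 : 1 / 2 * ∑ i, ∑ j, sg (s i) * sg (s j) * BB I ell Lam X i j =
      1 / 2 * ∑ i, BB I ell Lam X i i +
      1 / 2 * ∑ i, ∑ j, (if i = j then 0 else sg (s i) * sg (s j) * BB I ell Lam X i j) := by
    rw [← mul_add, ← Finset.sum_add_distrib]
    congr 1
    refine Finset.sum_congr rfl fun i _ => ?_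
    have : BB I ell Lam X i i = ∑ j, (if i = j then sg (s i) * sg (s j) * BB I ell Lam X i j
        else 0) := by
      rw [Finset.sum_ite_eq, if_pos (Finset.mem_univ _), sg_sq, one_mul]
    rw [this, ← Finset.sum_add_distrib]
    refine Finset.sum_congr rfl fun j _ => ?_
    split_ifs <;> simp
  have b1 : |1 / 2 * ∑ i, ∑ j, (if i = j then 0 else sg (s i) * sg (s j) * BB I ell Lam X i j)| ≤
      1 / 2 * (I.n * I.n * (X * (22 * (40 + 2 * I.m) / (ell : ℝ) ^ 3))) := by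
    rw [abs_mul, abs_of_pos (by norm_num : (0 : ℝ) < 1 / 2)]
    apply mul_le_mul_of_nonneg_left _ (by norm_num)
    refine (Finset.abs_sum_le_sum_abs _ _).trans ?_
    have h1 : ∀ i j : Fin I.n, |if i = j then (0 : ℝ) else
        sg (s i) * sg (s j) * BB I ell Lam X i j| ≤
        X * (22 * (40 + 2 * I.m) / (ell : ℝ) ^ 3) := by
      intro i j
      by_cases h : i = j
      · rw [if_pos h, abs_zero]; positivity
      · rw [if_neg h, abs_mul, abs_mul, abs_sg, abs_sg, one_mul, one_mul]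
        exact BB_bound I ell Lam X hell0 hLam2 hX i j h
    refine (Finset.sum_le_sum (fun e _ => (Finset.abs_sum_le_sum_abs _ _).trans
      (Finset.sum_le_sum fun e' _ => h1 e e'))).trans ?_
    rw [Finset.sum_const, Finset.sum_const, Finset.card_univ, Fintype.card_fin, nsmul_eq_mul,
      nsmul_eq_mul]
    exact le_of_eq (by ring)
  -- bus–mediator
  have e2 : ∑ e, sg (v e) * ∑ i, sg (s i) * BM I ell D Lam W X i e =
      (W : ℝ) / (D : ℝ) ^ 3 * ∑ e, sg (v e) * (lv (I.l e) s - lv (I.r e) s) +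
      ∑ e, sg (v e) * (∑ i, sg (s i) * BM I ell D Lam W X i e -
        (W : ℝ) / (D : ℝ) ^ 3 * (lv (I.l e) s - lv (I.r e) s)) := by
    rw [Finset.mul_sum, ← Finset.sum_add_distrib]
    refine Finset.sum_congr rfl fun e _ => by ring
  have b2 : |∑ e, sg (v e) * (∑ i, sg (s i) * BM I ell D Lam W X i e -
        (W : ℝ) / (D : ℝ) ^ 3 * (lv (I.l e) s - lv (I.r e) s))| ≤
      I.m * (W * ((20 * I.n + 16 * I.m) / (Lam : ℝ) ^ 3 +
        6 * (ell * I.n + 1) / (D : ℝ) ^ 4)) := by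
    refine (Finset.abs_sum_le_sum_abs _ _).trans ?_
    refine (Finset.sum_le_sum (fun e _ => show _ ≤ W * ((20 * I.n + 16 * I.m) / (Lam : ℝ) ^ 3 +
        6 * (ell * I.n + 1) / (D : ℝ) ^ 4) from ?_)).trans ?_
    · rw [abs_mul, abs_sg, one_mul]
      exact BM_bound I ell D Lam W X hD0 hLam2 hev hX s e
    · rw [Finset.sum_const, Finset.card_univ, Fintype.card_fin, nsmul_eq_mul]
  have b3 := MM_bound I Lam W hLam2 v
  have hnum := numeric (I.n : ℝ) (I.m : ℝ) (q : ℝ) (Nat.cast_nonneg _) (Nat.cast_nonneg _)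
    (by exact_mod_cast hq)
  have cX : (X : ℝ) = ((I.m : ℝ) + 2) * (2 * (q : ℝ) ^ 57) := by rw [hX, hLam]; push_cast; ring
  have cell : (ell : ℝ) = (q : ℝ) ^ 32 := by rw [hell]; push_cast; ring
  have cD : (D : ℝ) = (q : ℝ) ^ 34 := by rw [hD]; push_cast; ring
  have cL : (Lam : ℝ) = 2 * (q : ℝ) ^ 57 := by rw [hLam]; push_cast; ring
  have cW : (W : ℝ) = (q : ℝ) ^ 67 := by rw [hW]; push_cast; ring
  rw [← cX, ← cell, ← cD, ← cL, ← cW] at hnum
  rw [e1, e2]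
  have tri : ∀ a b c g h : ℝ, |g + a + (h + b) + c - (g + h)| ≤ |a| + |b| + |c| := by
    intro a b c g h
    have : g + a + (h + b) + c - (g + h) = a + b + c := by ring
    rw [this]; exact abs_add_three a b c
  refine (tri _ _ _ _ _).trans ?_
  linarith

end Vale.Agent.P370.H728
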