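import Vale.Agent.P370.H728.IsingE

/-!
Block P6 of P370, part F: flipping one end of a bus at a defect lowers the energy.
-/

namespace Vale.Agent.P370.H728

open Finset XorInst

/-- Sums over `Fin X` split at a place. -/
theorem sum_fin_le (x d : ℕ) (g : ℕ → ℝ) :
    ∑ y : Fin (x + 1 + d), (if (y : ℕ) ≤ x then g y else 0) = ∑ y ∈ range (x + 1), g y := by
  rw [Fin.sum_univ_eq_sum_range (fun y => if y ≤ x then g y else 0), Finset.sum_range_add]
  have h2 : ∑ y ∈ range d, (if x + 1 + y ≤ x then g (x + 1 + y) else 0) = 0 :=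
    Finset.sum_eq_zero fun y _ => if_neg (by omega)
  rw [h2, add_zero]
  refine Finset.sum_congr rfl fun y hy => if_pos ?_
  have := Finset.mem_range.1 hy; omega

theorem sum_fin_gt (x d : ℕ) (g : ℕ → ℝ) :
    ∑ y : Fin (x + 1 + d), (if (y : ℕ) ≤ x then 0 else g y) =
      ∑ k ∈ range d, g (x + 1 + k) := by
  rw [Fin.sum_univ_eq_sum_range (fun y => if y ≤ x then 0 else g y), Finset.sum_range_add]
  have h1 : ∑ y ∈ range (x + 1), (if y ≤ x then 0 else g y) = 0 :=
    Finset.sum_eq_zero fun y hy => if_pos (by have := Finset.mem_range.1 hy; omega)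
  rw [h1, zero_add]
  exact Finset.sum_congr rfl fun y _ => if_neg (by omega)

/-- The same-bus part of the energy of a defect is at least `37`. -/
theorem same_bus (x d : ℕ) (hd : 1 ≤ d) (f : Fin (x + 1 + d) → Fin (x + 1 + d) → ℝ)
    (h1 : ∀ x' y : Fin (x + 1 + d), (x' : ℕ) ≤ x → x < (y : ℕ) →
      -(484 * (1 / (((y : ℕ) : ℝ) - (x' : ℕ)) ^ 3)) ≤ f x' y)
    (h2 : ∀ x' y : Fin (x + 1 + d), (x' : ℕ) = x → (y : ℕ) = x + 1 → 400 ≤ f x' y) :
    37 ≤ ∑ x' : Fin (x + 1 + d), (if (x' : ℕ) ≤ x then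
      ∑ y : Fin (x + 1 + d), (if (y : ℕ) ≤ x then 0 else f x' y) else 0) := by
  set L : ℕ → ℕ → ℝ := fun x' y => (if x' = x ∧ y = x + 1 then 884 else 0) -
    484 * (1 / ((y : ℝ) - (x' : ℝ)) ^ 3) with hL
  have h3 : ∀ x' y : Fin (x + 1 + d), (x' : ℕ) ≤ x → x < (y : ℕ) → L x' y ≤ f x' y := by
    intro x' y hx' hy
    simp only [hL]
    by_cases h : (x' : ℕ) = x ∧ (y : ℕ) = x + 1
    · rw [if_pos h, h.1, h.2]
      have := h2 x' y h.1 h.2
      push_cast
      rw [show (x : ℝ) + 1 - x = 1 by ring]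
      norm_num; exact this
    · rw [if_neg h, zero_sub]; exact h1 x' y hx' hy
  have h4 : ∑ x' : Fin (x + 1 + d), (if (x' : ℕ) ≤ x then
      ∑ y : Fin (x + 1 + d), (if (y : ℕ) ≤ x then 0 else L x' y) else 0) ≤
      ∑ x' : Fin (x + 1 + d), (if (x' : ℕ) ≤ x then
      ∑ y : Fin (x + 1 + d), (if (y : ℕ) ≤ x then 0 else f x' y) else 0) := by
    refine Finset.sum_le_sum fun x' _ => ?_
    by_cases hx' : (x' : ℕ) ≤ x
    · rw [if_pos hx', if_pos hx']
      refine Finset.sum_le_sum fun y _ => ?_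
      by_cases hy : (y : ℕ) ≤ x
      · rw [if_pos hy, if_pos hy]
      · rw [if_neg hy, if_neg hy]; exact h3 x' y hx' (by omega)
    · rw [if_neg hx', if_neg hx']
  refine le_trans ?_ h4
  rw [sum_fin_le x d (fun x' => ∑ y : Fin (x + 1 + d), (if (y : ℕ) ≤ x then 0 else L x' y))]
  simp only [sum_fin_gt x d]
  have h5 : ∑ x' ∈ range (x + 1), ∑ k ∈ range d, L x' (x + 1 + k) =
      884 - 484 * ∑ x' ∈ range (x + 1), ∑ y ∈ range d,
      1 / (((x + 1 + y : ℕ) : ℝ) - ((x - x' : ℕ) : ℝ)) ^ 3 := by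
    simp only [hL, Finset.sum_sub_distrib, Finset.mul_sum]
    congr 1
    · rw [Finset.sum_eq_single x, Finset.sum_eq_single 0]
      · simp
      · intro k _ hk; rw [if_neg]; omega
      · intro h; exact absurd (Finset.mem_range.2 (by omega)) h
      · intro x' _ hx'
        refine Finset.sum_eq_zero fun k _ => if_neg ?_
        intro h; exact hx' h.1
      · intro h; exact absurd (Finset.mem_range.2 (by omega)) h
    · rw [← Finset.sum_range_reflect]
      refine Finset.sum_congr rfl fun x' _ => ?_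
      rw [show x + 1 - 1 - x' = x - x' by omega]
  rw [h5]
  have := defect_sum d x
  linarith

section

variable (I : XorInst) (ell D Lam W : ℕ) {X : ℕ}

/-- The flipped set: the places `≤ x` of the bus `i`. -/
def flp (i : Fin I.n) (x : ℕ) : I.Cell X → Bool
  | .inl (j, y) => decide (j = i ∧ (y : ℕ) ≤ x)
  | .inr _ => false

/-- Cross energy of the flipped set. -/
theorem cross_expand (i : Fin I.n) (x : ℕ) (F : I.Cell X → I.Cell X → ℝ) :
    ∑ c, ∑ c', (if flp I i x c then (1 : ℝ) else 0) * (1 - if flp I i x c' then (1 : ℝ) else 0) *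
      F c c' =
    ∑ x' : Fin X, (if (x' : ℕ) ≤ x then
      ∑ y : Fin X, (if (y : ℕ) ≤ x then 0 else F (.inl (i, x')) (.inl (i, y))) else 0) +
    ∑ x' : Fin X, (if (x' : ℕ) ≤ x then
      ∑ j ∈ Finset.univ.erase i, ∑ y : Fin X, F (.inl (i, x')) (.inl (j, y)) else 0) +
    ∑ x' : Fin X, (if (x' : ℕ) ≤ x then
      ∑ e : Fin I.m, F (.inl (i, x')) (.inr e) else 0) := by
  have h1 : ∀ c, ∑ c', (if flp I i x c then (1 : ℝ) else 0) *
      (1 - if flp I i x c' then (1 : ℝ) else 0) * F c c' =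
      (if flp I i x c then ∑ c', (1 - if flp I i x c' then (1 : ℝ) else 0) * F c c' else 0) := by
    intro c
    split_ifs
    · simp
    · simp
  rw [Finset.sum_congr rfl fun c _ => h1 c, Fintype.sum_sum_type, Fintype.sum_prod_type]
  have h2 : ∑ e : Fin I.m, (if flp I i x (.inr e : I.Cell X) then
      ∑ c', (1 - if flp I i x c' then (1 : ℝ) else 0) * F (.inr e) c' else 0) = 0 :=
    Finset.sum_eq_zero fun e _ => by simp [flp]
  rw [h2, add_zero, Finset.sum_eq_single i]
  · rw [← Finset.sum_add_distrib, ← Finset.sum_add_distrib]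
    refine Finset.sum_congr rfl fun x' _ => ?_
    by_cases hx' : (x' : ℕ) ≤ x
    · have : flp I i x (.inl (i, x') : I.Cell X) = true := by simp [flp, hx']
      rw [if_pos this, if_pos hx', if_pos hx', if_pos hx', Fintype.sum_sum_type,
        Fintype.sum_prod_type, ← Finset.add_sum_erase _ _ (Finset.mem_univ i)]
      congr 1
      · congr 1
        · refine Finset.sum_congr rfl fun y _ => ?_
          by_cases hy : (y : ℕ) ≤ x
          · simp [flp, hy]
          · simp [flp, hy]
        · refine Finset.sum_congr rfl fun j hj => Finset.sum_congr rfl fun y _ => ?_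
          have hj' : j ≠ i := (Finset.mem_erase.1 hj).1
          simp [flp, hj']
      · refine Finset.sum_congr rfl fun e _ => ?_
        simp [flp]
    · have : ¬ flp I i x (.inl (i, x') : I.Cell X) = true := by simp [flp]; omega
      rw [if_neg this, if_neg hx', if_neg hx', if_neg hx']; simp
  · intro j _ hj
    refine Finset.sum_eq_zero fun x' _ => ?_
    simp [flp, hj]
  · intro h; exact absurd (Finset.mem_univ i) h

end

end Vale.Agent.P370.H728
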